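import Mathlib

/-!
# Alignments of two sequences of tagged units

Two words are concatenations of `N` units; all symbols of unit `A` carry the tag `A % d`, so common
subsequences only pair units with congruent indices. If the gain of pairing unit `A` with unit `B`
is `1 - δ'` plus a weight whose sums over aligned periods are nonpositive, then a potential shows
that a common subsequence has length at most `(1 - δ')` times the length, plus one period.
-/

namespace Vale.Agent.P238.Rec

open List

variable {α : Type*}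

/-- If the head of a common subsequence avoids a unit, so does all of it. -/
theorem sublist_skip {key : α → ℕ} {u x : List α} {h : α} {z : List α} {k : ℕ}
    (hu : ∀ s ∈ u, key s = k) (hk : key h ≠ k) (hs : h :: z <+ u ++ x) : h :: z <+ x := by
  induction u with
  | nil => simpa using hs
  | cons a u ih =>
    refine ih (fun s hs' => hu s (List.mem_cons_of_mem _ hs')) ?_
    rcases List.sublist_cons_iff.mp hs with h' | ⟨r, hr, _⟩
    · exact h'
    · exact absurd (hu a List.mem_cons_self) (by
        have : h = a := (List.cons.inj hr).1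
        exact this ▸ hk)

/-- The units from `A` up to `N`, concatenated. -/
def tailUnits (U : ℕ → List α) (N A : ℕ) : List α := (List.range' A (N - A)).flatMap U

theorem tailUnits_lt (U : ℕ → List α) {N A : ℕ} (h : A < N) :
    tailUnits U N A = U A ++ tailUnits U N (A + 1) := by
  unfold tailUnits
  rw [show N - A = (N - (A + 1)) + 1 by omega, List.range'_succ, List.flatMap_cons]

theorem tailUnits_ge (U : ℕ → List α) {N A : ℕ} (h : N ≤ A) : tailUnits U N A = [] := by
  simp [tailUnits, show N - A = 0 by omega]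

theorem tailUnits_zero (U : ℕ → List α) (N : ℕ) :
    tailUnits U N 0 = (List.range N).flatMap U := by
  simp [tailUnits, List.range_eq_range']

/-- The alignment principle. -/
theorem align (d N : ℕ) (key : α → ℕ) (U V : ℕ → List α)
    (hU : ∀ A < N, ∀ s ∈ U A, key s = A % d) (hV : ∀ B < N, ∀ s ∈ V B, key s = B % d)
    (g f : ℕ → ℕ → ℝ)
    (hg : ∀ A < N, ∀ B < N, A % d = B % d → ∀ Z, Z <+ U A → Z <+ V B → (Z.length : ℝ) ≤ g A B)
    (hnn : ∀ A B, 0 ≤ f A B)
    (hoff : ∀ A < N, ∀ B < N, A % d ≠ B % d → f (A + 1) B ≤ f A B ∧ f A (B + 1) ≤ f A B)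
    (hon : ∀ A < N, ∀ B < N, A % d = B % d →
      g A B + f (A + 1) B ≤ f A B ∧ g A B + f A (B + 1) ≤ f A B) :
    ∀ Z, Z <+ (List.range N).flatMap U → Z <+ (List.range N).flatMap V →
      (Z.length : ℝ) ≤ f 0 0 := by
  suffices H : ∀ (m A B : ℕ), (N - A) + (N - B) = m → ∀ Z, Z <+ tailUnits U N A →
      Z <+ tailUnits V N B → (Z.length : ℝ) ≤ f A B by
    intro Z h1 h2
    exact H _ 0 0 rfl Z (by rwa [tailUnits_zero]) (by rwa [tailUnits_zero])
  intro m
  induction m using Nat.strong_induction_on with
  | _ m ih =>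
    intro A B hm Z hZU hZV
    match Z, hZU, hZV with
    | [], _, _ => simpa using hnn A B
    | h :: z, hZU, hZV =>
      have hA : A < N := by
        by_contra hA
        rw [tailUnits_ge U (by omega)] at hZU
        simp at hZU
      have hB : B < N := by
        by_contra hB
        rw [tailUnits_ge V (by omega)] at hZV
        simp at hZV
      have eU := tailUnits_lt U hA
      have eV := tailUnits_lt V hB
      by_cases hAB : A % d = B % d
      · obtain ⟨z1, z2, hz, h1, h2⟩ := List.sublist_append_iff.mp (eU ▸ hZU)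
        obtain ⟨w1, w2, hw, k1, k2⟩ := List.sublist_append_iff.mp (eV ▸ hZV)
        rcases le_total z1.length w1.length with hle | hle
        · have hpre : z1 <+ w1 := by
            refine List.IsPrefix.sublist ?_
            exact List.prefix_of_prefix_length_le ⟨z2, hz.symm⟩ ⟨w2, hw.symm⟩ hle
          have hz2 : z2 <+ tailUnits V N B :=
            (List.sublist_append_right z1 z2).trans (hz ▸ hZV)
          have i1 := ih ((N - (A + 1)) + (N - B)) (by omega) (A + 1) B rfl z2 h2 hz2
          have g1 := hg A hA B hB hAB z1 h1 (hpre.trans k1)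
          rw [hz, List.length_append, Nat.cast_add]
          linarith [(hon A hA B hB hAB).1]
        · have hpre : w1 <+ z1 := by
            refine List.IsPrefix.sublist ?_
            exact List.prefix_of_prefix_length_le ⟨w2, hw.symm⟩ ⟨z2, hz.symm⟩ hle
          have hw2 : w2 <+ tailUnits U N A :=
            (List.sublist_append_right w1 w2).trans (hw ▸ hZU)
          have i1 := ih ((N - A) + (N - (B + 1))) (by omega) A (B + 1) rfl w2 hw2 k2
          have g1 := hg A hA B hB hAB w1 (hpre.trans h1) k1
          rw [hw, List.length_append, Nat.cast_add]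
          linarith [(hon A hA B hB hAB).2]
      · obtain ⟨o1, o2⟩ := hoff A hA B hB hAB
        by_cases hh : key h = A % d
        · have hs := sublist_skip (hV B hB) (hh ▸ hAB) (eV ▸ hZV)
          exact (ih ((N - A) + (N - (B + 1))) (by omega) A (B + 1) rfl _ hZU hs).trans o2
        · have hs := sublist_skip (hU A hA) hh (eU ▸ hZU)
          exact (ih ((N - (A + 1)) + (N - B)) (by omega) (A + 1) B rfl _ hs hZV).trans o1

/-! ### The potential -/

/-- The best prefix sum of the weight along a diagonal, looking `n` steps ahead. -/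
def slack (w : ℕ → ℕ → ℝ) : ℕ → ℕ → ℕ → ℝ
  | 0, _, _ => 0
  | n + 1, A, B => max 0 (w A B + slack w n (A + 1) (B + 1))

theorem slack_nonneg (w : ℕ → ℕ → ℝ) : ∀ n A B, 0 ≤ slack w n A B
  | 0, _, _ => le_rfl
  | _ + 1, _, _ => le_max_left _ _

theorem slack_unfold_le {w : ℕ → ℕ → ℝ} {δ' : ℝ} (h0 : 0 ≤ δ') (hw : ∀ A B, w A B ≤ δ') :
    ∀ p n A B, p ≤ n → slack w n A B ≤ max (p * δ')
      ((∑ i ∈ Finset.range p, w (A + i) (B + i)) + slack w (n - p) (A + p) (B + p)) := by
  intro p
  induction p with
  | zero => intro n A B _; simp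
  | succ p ih =>
    intro n A B hpn
    obtain ⟨m, rfl⟩ : ∃ m, n = m + 1 := ⟨n - 1, by omega⟩
    have hp0 : (0 : ℝ) ≤ ((p + 1 : ℕ) : ℝ) * δ' := by positivity
    have hi := ih m (A + 1) (B + 1) (by omega)
    simp only [slack]
    refine max_le (le_max_of_le_left hp0) ?_
    refine le_trans (add_le_add_right hi _) ?_
    rw [← max_add_add_left, Finset.sum_range_succ', Nat.succ_sub_succ]
    refine max_le_max ?_ (le_of_eq ?_)
    · push_cast
      linarith [hw A B]
    · have e : ∀ i, w (A + 1 + i) (B + 1 + i) = w (A + (i + 1)) (B + (i + 1)) := fun i => by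
        rw [show A + 1 + i = A + (i + 1) by omega, show B + 1 + i = B + (i + 1) by omega]
      simp only [Finset.sum_congr rfl fun i _ => e i, add_zero]
      rw [show A + 1 + p = A + (p + 1) by omega, show B + 1 + p = B + (p + 1) by omega]
      ring

theorem slack_aligned_le {w : ℕ → ℕ → ℝ} {δ' : ℝ} {d : ℕ} (hd : 0 < d) (h0 : 0 ≤ δ')
    (hw : ∀ A B, w A B ≤ δ')
    (hper : ∀ q q', ∑ i ∈ Finset.range d, w (d * q + i) (d * q' + i) ≤ 0) :
    ∀ n q q', slack w n (d * q) (d * q') ≤ d * δ' := by
  intro n
  induction n using Nat.strong_induction_on with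
  | _ n ih =>
    intro q q'
    by_cases hn : n ≤ d
    · refine (slack_unfold_le h0 hw n n _ _ le_rfl).trans (max_le ?_ ?_)
      · exact mul_le_mul_of_nonneg_right (by exact_mod_cast hn) h0
      · simp only [Nat.sub_self, slack, add_zero]
        refine le_trans (Finset.sum_le_sum fun i _ => hw _ _) ?_
        simp only [Finset.sum_const, Finset.card_range, nsmul_eq_mul]
        exact mul_le_mul_of_nonneg_right (by exact_mod_cast hn) h0
    · refine (slack_unfold_le h0 hw d n _ _ (by omega)).trans (max_le le_rfl ?_)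
      have h2 := ih (n - d) (by omega) (q + 1) (q' + 1)
      rw [Nat.mul_succ, Nat.mul_succ] at h2
      linarith [hper q q']

theorem slack_le {w : ℕ → ℕ → ℝ} {δ' : ℝ} {d : ℕ} (hd : 0 < d) (h0 : 0 ≤ δ')
    (hw : ∀ A B, w A B ≤ δ')
    (hper : ∀ q q', ∑ i ∈ Finset.range d, w (d * q + i) (d * q' + i) ≤ 0)
    (n A B : ℕ) (hAB : A % d = B % d) : slack w n A B ≤ 2 * d * δ' := by
  set r := d - A % d with hr
  have hrd : r ≤ d := by omega
  have hsum : ∀ p, p ≤ d → ∑ i ∈ Finset.range p, w (A + i) (B + i) ≤ d * δ' := by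
    intro p hp
    refine le_trans (Finset.sum_le_sum fun i _ => hw _ _) ?_
    simp only [Finset.sum_const, Finset.card_range, nsmul_eq_mul]
    exact mul_le_mul_of_nonneg_right (by exact_mod_cast hp) h0
  have hd0 : (0 : ℝ) ≤ d * δ' := by positivity
  have hcast : ∀ p, p ≤ d → (p : ℝ) * δ' ≤ d * δ' := fun p hp =>
    mul_le_mul_of_nonneg_right (by exact_mod_cast hp) h0
  by_cases hn : n ≤ r
  · refine (slack_unfold_le h0 hw n n A B le_rfl).trans (max_le ?_ ?_)
    · linarith [hcast n (by omega)]
    · simp only [Nat.sub_self, slack]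
      linarith [hsum n (by omega)]
  · refine (slack_unfold_le h0 hw r n A B (by omega)).trans (max_le ?_ ?_)
    · linarith [hcast r hrd]
    · have eA : A + r = d * (A / d + 1) := by
        have := Nat.div_add_mod A d
        have := Nat.mod_lt A hd
        rw [Nat.mul_succ]; omega
      have eB : B + r = d * (B / d + 1) := by
        have := Nat.div_add_mod B d
        have := Nat.mod_lt B hd
        rw [Nat.mul_succ]; omega
      rw [eA, eB]
      linarith [hsum r hrd, slack_aligned_le hd h0 hw hper (n - r) (A / d + 1) (B / d + 1)]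

/-- The slack on the diagonal through `(A, B)`, up to the end of the first word. -/
def diag (w : ℕ → ℕ → ℝ) (N A B : ℕ) : ℝ := slack w (N - A) A B

/-- How far `B` is ahead of `A`, modulo `d`. -/
def gap (d A B : ℕ) : ℕ := (B + (d - 1) * A) % d

theorem gap_step {d A B : ℕ} (hd : 0 < d) :
    gap d (A + 1) B = (gap d A B + (d - 1)) % d ∧ gap d A (B + 1) = (gap d A B + 1) % d := by
  unfold gap
  constructor
  · rw [Nat.mod_add_mod, Nat.mul_succ, Nat.add_assoc]
  · rw [Nat.mod_add_mod]; congr 1; omega

theorem gap_eq_zero {d A B : ℕ} (hd : 0 < d) : gap d A B = 0 ↔ A % d = B % d := by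
  have key : (gap d A B + A) % d = B % d := by
    unfold gap
    rw [Nat.mod_add_mod, show B + (d - 1) * A + A = B + d * A by
      obtain ⟨e, rfl⟩ : ∃ e, d = e + 1 := ⟨d - 1, by omega⟩
      rw [Nat.add_sub_cancel, Nat.succ_mul]; omega, Nat.add_mul_mod_self_left]
  constructor
  · intro h; rw [h, Nat.zero_add] at key; exact key
  · intro h
    rw [← h] at key
    have h2 : gap d A B < d := Nat.mod_lt _ hd
    have h3 : (gap d A B + A % d) % d = A % d := by rwa [Nat.add_mod_mod]
    have := Nat.mod_lt A hd
    rcases lt_or_ge (gap d A B + A % d) d with hl | hl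
    · rw [Nat.mod_eq_of_lt hl] at h3; omega
    · rw [Nat.mod_eq_sub_mod hl, Nat.mod_eq_of_lt (by omega)] at h3; omega

/-- The potential off and on the aligned states. -/
noncomputable def phi (w : ℕ → ℕ → ℝ) (d N : ℕ) (lam : ℝ) (A B : ℕ) : ℝ :=
  if gap d A B = 0 then diag w N A B
  else max (-(gap d A B : ℝ) * lam / 2 + diag w N (A + gap d A B) B)
    (-((d : ℝ) - gap d A B) * lam / 2 + diag w N A (B + (d - gap d A B)))

/-- The full potential. -/
noncomputable def pot (w : ℕ → ℕ → ℝ) (d N : ℕ) (lam : ℝ) (A B : ℕ) : ℝ :=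
  max 0 (lam / 2 * (((N - A : ℕ) : ℝ) + ((N - B : ℕ) : ℝ)) + phi w d N lam A B)

/-- Alignment with periodic weights. -/
theorem align_periodic (d N : ℕ) (hd : 4 ≤ d) (key : α → ℕ) (U V : ℕ → List α)
    (hU : ∀ A < N, ∀ s ∈ U A, key s = A % d) (hV : ∀ B < N, ∀ s ∈ V B, key s = B % d)
    (m δ' : ℝ) (hm : 0 ≤ m) (h0 : 0 ≤ δ') (hsmall : δ' ≤ 1 / 16)
    (w : ℕ → ℕ → ℝ) (hwhi : ∀ A B, w A B ≤ δ') (hwlo : ∀ A B, -(1 - δ') ≤ w A B)
    (hg : ∀ A < N, ∀ B < N, A % d = B % d → ∀ Z, Z <+ U A → Z <+ V B →
      (Z.length : ℝ) ≤ m * (1 - δ' + w A B))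
    (hper : ∀ q q', ∑ i ∈ Finset.range d, w (d * q + i) (d * q' + i) ≤ 0) :
    ∀ Z, Z <+ (List.range N).flatMap U → Z <+ (List.range N).flatMap V →
      (Z.length : ℝ) ≤ m * ((1 - δ') * N + d * δ') := by
  have hdpos : 0 < d := by omega
  have hd' : (4 : ℝ) ≤ d := by exact_mod_cast hd
  set lam := 1 - δ' with hlam
  have hl : 15 / 16 ≤ lam := by linarith
  set S := diag w N with hS
  have hSnn : ∀ A B, 0 ≤ S A B := fun A B => slack_nonneg _ _ _ _
  have hSH : ∀ A B, A % d = B % d → S A B ≤ 2 * d * δ' := fun A B h =>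
    slack_le hdpos h0 hwhi hper _ A B h
  have hSstep : ∀ A B, A < N → w A B + S (A + 1) (B + 1) ≤ S A B := by
    intro A B hA
    show _ ≤ slack w (N - A) A B
    rw [show N - A = (N - (A + 1)) + 1 by omega]
    exact le_max_right _ _
  have hSback : ∀ A B, S (A + 1) (B + 1) ≤ S A B + lam := by
    intro A B
    by_cases hA : A < N
    · linarith [hSstep A B hA, hwlo A B]
    · have : S (A + 1) (B + 1) = 0 := by
        show slack w (N - (A + 1)) (A + 1) (B + 1) = 0
        rw [show N - (A + 1) = 0 by omega]; rfl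
      linarith [hSnn A B]
  intro Z hZU hZV
  have hcastA : ∀ A, A < N → ((N - A : ℕ) : ℝ) = ((N - (A + 1) : ℕ) : ℝ) + 1 := fun A hA => by
    exact_mod_cast (by omega : N - A = N - (A + 1) + 1)
  have hcastNN : ∀ A, (0 : ℝ) ≤ ((N - A : ℕ) : ℝ) := fun A => Nat.cast_nonneg _
  have main := align d N key U V hU hV (fun A B => m * (lam + w A B))
    (fun A B => m * pot w d N lam A B) hg
    (fun A B => mul_nonneg hm (le_max_left _ _)) ?_ ?_ Z hZU hZV
  · refine main.trans (mul_le_mul_of_nonneg_left ?_ hm)
    have hg0 : gap d 0 0 = 0 := (gap_eq_zero hdpos).mpr rfl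
    have h1 : S 0 0 ≤ d * δ' := by
      simpa [hS, diag] using slack_aligned_le hdpos h0 hwhi hper N 0 0
    simp only [pot, phi, if_pos hg0, Nat.sub_zero, ← hS]
    have hl0 : 0 ≤ lam * N := by positivity
    have hdd : (0 : ℝ) ≤ d * δ' := by positivity
    exact max_le (by linarith) (by linarith)
  · intro A hA B hB hne
    have he : gap d A B ≠ 0 := fun h => hne ((gap_eq_zero hdpos).mp h)
    have hed : gap d A B < d := Nat.mod_lt _ hdpos
    obtain ⟨e, hge⟩ : ∃ e, gap d A B = e + 1 := ⟨gap d A B - 1, by omega⟩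
    obtain ⟨g1, g2⟩ := gap_step (A := A) (B := B) hdpos
    rw [hge] at g1 g2 he hed
    rw [show e + 1 + (d - 1) = e + d by omega, Nat.add_mod_right, Nat.mod_eq_of_lt (by omega)] at g1
    have hphi : phi w d N lam A B = max (-((e : ℝ) + 1) * lam / 2 + S (A + (e + 1)) B)
        (-((d : ℝ) - (e + 1)) * lam / 2 + S A (B + (d - (e + 1)))) := by
      rw [phi, hge, if_neg he, ← hS]; push_cast; rfl
    constructor
    · refine mul_le_mul_of_nonneg_left (max_le_max le_rfl ?_) hm
      rw [hcastA A hA]
      suffices h : phi w d N lam (A + 1) B ≤ phi w d N lam A B + lam / 2 by linarith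
      rw [hphi]
      have eA : A + 1 + e = A + (e + 1) := by omega
      by_cases he0 : e = 0
      · subst he0
        rw [phi, g1, if_pos rfl, ← hS]
        refine le_trans ?_ (add_le_add_left (le_max_left _ _) _)
        rw [Nat.zero_add]; push_cast; linarith
      · rw [phi, g1, if_neg he0, ← hS, eA]
        refine max_le (le_trans ?_ (add_le_add_left (le_max_left _ _) _))
          (le_trans ?_ (add_le_add_left (le_max_right _ _) _))
        · linarith
        · have h1 := hSback A (B + (d - (e + 1)))
          rw [show B + (d - (e + 1)) + 1 = B + (d - e) by omega] at h1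
          linarith
    · refine mul_le_mul_of_nonneg_left (max_le_max le_rfl ?_) hm
      rw [hcastA B hB]
      suffices h : phi w d N lam A (B + 1) ≤ phi w d N lam A B + lam / 2 by linarith
      rw [hphi]
      by_cases hed' : e + 2 = d
      · rw [show e + 1 + 1 = d by omega, Nat.mod_self] at g2
        rw [phi, g2, if_pos rfl, ← hS]
        refine le_trans ?_ (add_le_add_left (le_max_right _ _) _)
        rw [show d - (e + 1) = 1 by omega]
        have : (d : ℝ) = (e : ℝ) + 2 := by exact_mod_cast hed'.symm
        rw [this]; linarith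
      · rw [Nat.mod_eq_of_lt (by omega)] at g2
        rw [phi, g2, if_neg (by omega), ← hS]
        refine max_le (le_trans ?_ (add_le_add_left (le_max_left _ _) _))
          (le_trans ?_ (add_le_add_left (le_max_right _ _) _))
        · have h1 := hSback (A + (e + 1)) B
          rw [show A + (e + 1 + 1) = A + (e + 1) + 1 by omega]
          push_cast
          linarith
        · rw [show B + 1 + (d - (e + 1 + 1)) = B + (d - (e + 1)) by omega]
          push_cast
          linarith
  · intro A hA B hB heq
    have he : gap d A B = 0 := (gap_eq_zero hdpos).mpr heq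
    obtain ⟨g1, g2⟩ := gap_step (A := A) (B := B) hdpos
    rw [he, Nat.zero_add, Nat.mod_eq_of_lt (by omega)] at g1 g2
    have hstep := hSstep A B hA
    have hfull : lam + w A B ≤
        lam / 2 * (((N - A : ℕ) : ℝ) + ((N - B : ℕ) : ℝ)) + phi w d N lam A B := by
      rw [phi, he, if_pos rfl, ← hS, hcastA A hA, hcastA B hB]
      have := hSnn (A + 1) (B + 1)
      have := mul_nonneg (by linarith : 0 ≤ lam / 2)
        (add_nonneg (hcastNN (A + 1)) (hcastNN (B + 1)))
      linarith
    have hdlam : (d : ℝ) * lam / 2 ≥ 1 + 2 * d * δ' := by nlinarith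
    constructor
    · show m * _ + m * _ ≤ m * _
      rw [← mul_add]
      refine mul_le_mul_of_nonneg_left ?_ hm
      unfold pot
      rw [← max_add_add_left, add_zero]
      refine max_le (le_max_of_le_right hfull) (le_max_of_le_right ?_)
      rw [hcastA A hA]
      suffices h : lam + w A B + phi w d N lam (A + 1) B ≤ phi w d N lam A B + lam / 2 by linarith
      rw [phi, phi, g1, he, if_pos rfl, if_neg (by omega), ← hS, ← max_add_add_left]
      refine max_le ?_ ?_
      · have hb := hSH (A + 1 + (d - 1)) B (by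
          rw [show A + 1 + (d - 1) = A + d by omega, Nat.add_mod_right, heq])
        rw [Nat.cast_sub (by omega : 1 ≤ d)]
        push_cast
        linarith [hSnn A B, hwhi A B]
      · rw [show d - (d - 1) = 1 by omega, Nat.cast_sub (by omega : 1 ≤ d)]
        push_cast
        linarith
    · show m * _ + m * _ ≤ m * _
      rw [← mul_add]
      refine mul_le_mul_of_nonneg_left ?_ hm
      unfold pot
      rw [← max_add_add_left, add_zero]
      refine max_le (le_max_of_le_right hfull) (le_max_of_le_right ?_)
      rw [hcastA B hB]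
      suffices h : lam + w A B + phi w d N lam A (B + 1) ≤ phi w d N lam A B + lam / 2 by linarith
      rw [phi, phi, g2, he, if_pos rfl, if_neg (by omega), ← hS, ← max_add_add_left]
      refine max_le ?_ ?_
      · push_cast
        linarith
      · have hb := hSH A (B + 1 + (d - 1)) (by
          rw [show B + 1 + (d - 1) = B + d by omega, Nat.add_mod_right, heq])
        push_cast
        linarith [hSnn A B, hwhi A B]

end Vale.Agent.P238.Rec
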