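import Vale.Agent.P238.Edit

/-!
# Edit distance and concatenation; finiteness of the distortion
-/

namespace Vale.Agent.P238.Rec

open List Vale.Agent.P238

theorem step_context (l r : List Bool) {x y : List Bool} (h : EditStep x y) :
    EditStep (l ++ x ++ r) (l ++ y ++ r) := by
  cases h with
  | ins p q a => simpa [List.append_assoc] using EditStep.ins (l ++ p) (q ++ r) a
  | del p q a => simpa [List.append_assoc] using EditStep.del (l ++ p) (q ++ r) a
  | sub p q a b => simpa [List.append_assoc] using EditStep.sub (l ++ p) (q ++ r) a b

theorem chain_context (l r : List Bool) {k : ℕ} {x y : List Bool} (h : EditChain k x y) :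
    EditChain k (l ++ x ++ r) (l ++ y ++ r) := by
  induction h with
  | refl x => exact EditChain.refl _
  | tail _ hs ih => exact EditChain.tail ih (step_context l r hs)

theorem editDist_self (x : List Bool) : editDist x x = 0 :=
  Nat.le_zero.mp (editDist_le (EditChain.refl x))

theorem editDist_append_le (a a' b b' : List Bool) :
    editDist (a ++ b) (a' ++ b') ≤ editDist a a' + editDist b b' := by
  have h1 : EditChain (editDist a a') (a ++ b) (a' ++ b) := by
    simpa using chain_context [] b (editDist_chain a a')
  have h2 : EditChain (editDist b b') (a' ++ b) (a' ++ b') := by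
    simpa using chain_context a' [] (editDist_chain b b')
  exact editDist_le (chain_trans h1 h2)

/-- Concatenations are at most as far apart as their pieces together. -/
theorem editDist_flatMap_le {β : Type*} (f g : β → List Bool) : ∀ l : List β,
    editDist (l.flatMap f) (l.flatMap g) ≤ (l.map fun b => editDist (f b) (g b)).sum
  | [] => by simp [editDist_self]
  | b :: l => by
    simp only [List.flatMap_cons, List.map_cons, List.sum_cons]
    exact (editDist_append_le _ _ _ _).trans
      (Nat.add_le_add_left (editDist_flatMap_le f g l) _)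

theorem editDist_le_max (x y : List Bool) : editDist x y ≤ x.length + y.length :=
  editDist_le (chain_exists x y)

/-- Some map into `ℓ₁` has finite distortion. -/
theorem distortion_set_nonempty {n : ℕ} (hn : 0 < n) :
    {t : ℝ | ∃ (f : (Fin n → Bool) → EllOne) (A B : ℝ), 0 < A ∧ 0 < B ∧ t = A * B ∧
      ∀ x y, ‖f x - f y‖ ≤ A * (wordDist x y : ℝ) ∧
        (wordDist x y : ℝ) ≤ B * ‖f x - f y‖}.Nonempty := by
  classical
  let ι : (Fin n → Bool) → ℕ := fun x => (Fintype.equivFin (Fin n → Bool) x : ℕ)
  have hι : Function.Injective ι := fun x y h => (Fintype.equivFin _).injective (Fin.ext h)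
  let f : (Fin n → Bool) → EllOne := fun x => lp.single 1 (ι x) (1 : ℝ)
  refine ⟨2 * (2 * n), f, 2, 2 * n, by norm_num, by positivity, rfl, fun x y => ?_⟩
  by_cases hxy : x = y
  · subst hxy
    simp [wordDist, editDist_self]
  have h1 : 1 ≤ wordDist x y := by
    by_contra h
    have h0 := editDist_chain (List.ofFn x) (List.ofFn y)
    rw [show editDist (List.ofFn x) (List.ofFn y) = 0 by unfold wordDist at h; omega] at h0
    obtain ⟨l, hlx, hly, hlen⟩ := chain_common h0
    have ex := hlx.eq_of_length_le (by omega)
    have ey := hly.eq_of_length_le (by simp only [List.length_ofFn] at hlen ⊢; omega)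
    exact hxy (List.ofFn_injective (ex.symm.trans ey))
  have hup : ‖f x - f y‖ ≤ 2 := by
    refine (norm_sub_le _ _).trans ?_
    simp only [f, lp.norm_single (by simp : (0 : ENNReal) < 1)]
    norm_num
  have hlo : 1 ≤ ‖f x - f y‖ := by
    refine le_trans ?_ (lp.norm_apply_le_norm (by simp) (f x - f y) (ι x))
    have : ι x ≠ ι y := fun h => hxy (hι h)
    simp [f, lp.single_apply, this]
  have h1' : (1 : ℝ) ≤ (wordDist x y : ℝ) := by exact_mod_cast h1
  have h2' : (wordDist x y : ℝ) ≤ 2 * n := by
    have := editDist_le_max (List.ofFn x) (List.ofFn y)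
    simp only [List.length_ofFn] at this
    exact_mod_cast (by unfold wordDist; omega : wordDist x y ≤ 2 * n)
  have hn' : (0 : ℝ) ≤ 2 * (n : ℝ) := by positivity
  constructor <;> nlinarith

end Vale.Agent.P238.Rec
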