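import Vale.Agent.P238.Rec.Words
import Vale.Agent.P238.Edit

/-!
# A linear code and a binary code, both found greedily

The linear code detects all small sets and keeps every two of its elements from being nearly
complementary. The binary code gives different symbols words without similar pieces.
-/

namespace Vale.Agent.P238.Rec

open List Vale.Agent.P238

theorem choose_mul_pow_le (N j t : ℕ) (hj : j ≤ N) : N.choose j * t ^ (N - j) ≤ (1 + t) ^ N := by
  rw [add_pow]
  refine le_trans (le_of_eq ?_) (Finset.single_le_sum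
    (f := fun m => 1 ^ m * t ^ (N - m) * N.choose m)
    (fun m _ => Nat.zero_le _) (Finset.mem_range.mpr (Nat.lt_succ_of_le hj)))
  simp [mul_comm]

theorem sixteen_pow_le (t : ℕ) : 16 ^ (16 * t) ≤ 2 ^ (6 * t) * 15 ^ (15 * t) := by
  rw [pow_mul, pow_mul 2, pow_mul 15, ← mul_pow]
  exact Nat.pow_le_pow_left (by norm_num) t

theorem choose_le (t : ℕ) : (16 * t).choose t ≤ 2 ^ (6 * t) := by
  have h := choose_mul_pow_le (16 * t) t 15 (by omega)
  rw [show 16 * t - t = 15 * t by omega] at h
  exact Nat.le_of_mul_le_mul_right (h.trans (sixteen_pow_le t)) (by positivity)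

theorem small_sets_card (t : ℕ) :
    (Finset.univ.filter fun S : Finset (Fin (16 * t)) => S.card < t).card ≤ 2 ^ (6 * t) := by
  set P := Finset.univ.filter fun S : Finset (Fin (16 * t)) => S.card < t with hP
  have h1 : ∀ S ∈ P, 15 ^ (15 * t) ≤ 15 ^ (16 * t - S.card) := fun S hS => by
    have := (Finset.mem_filter.mp hS).2
    exact Nat.pow_le_pow_right (by norm_num) (by omega)
  have h2 : P.card * 15 ^ (15 * t) ≤ ∑ S : Finset (Fin (16 * t)), 15 ^ (16 * t - S.card) := by
    rw [← smul_eq_mul, ← Finset.sum_const]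
    exact (Finset.sum_le_sum h1).trans
      (Finset.sum_le_sum_of_subset (Finset.subset_univ _))
  have h3 : ∑ S : Finset (Fin (16 * t)), 15 ^ (16 * t - S.card) = 16 ^ (16 * t) := by
    have := Fintype.sum_pow_mul_eq_add_pow (Fin (16 * t)) 1 15
    simpa using this
  exact Nat.le_of_mul_le_mul_right ((h2.trans_eq h3).trans (sixteen_pow_le t)) (by positivity)

variable {d : ℕ}

theorem length_span : ∀ cs : List (Fin d → Bool), (span cs).length = 2 ^ cs.length
  | [] => rfl
  | c :: cs => by
    rw [span, List.length_append, List.length_map, length_span cs, List.length_cons, pow_succ]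
    omega

theorem zero_far (τ : ℕ) (hτ : τ ≤ d) : Far τ ([] : List (Fin d → Bool)) := by
  intro v hv w hw
  simp only [span, List.mem_singleton] at hv hw
  subst hv hw
  simpa using hτ

theorem agree_xorv (v w c : Fin d → Bool) :
    (Finset.univ.filter fun i => xorv v c i = xorv w c i) = Finset.univ.filter fun i => v i = w i := by
  refine Finset.filter_congr fun i _ => ?_
  simp only [xorv]
  cases v i <;> cases w i <;> cases c i <;> simp

theorem span_xorv : ∀ (cs : List (Fin d → Bool)), ∀ v ∈ span cs, ∀ w ∈ span cs, xorv v w ∈ span cs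
  | [], v, hv, w, hw => by
    simp only [span, List.mem_singleton] at hv hw ⊢
    subst hv hw
    rfl
  | c :: cs, v, hv, w, hw => by
    simp only [span, List.mem_append, List.mem_map] at hv hw ⊢
    have key : ∀ a b : Fin d → Bool, xorv (xorv a c) b = xorv (xorv a b) c := fun a b => by
      funext i; simp [xorv, Bool.xor_assoc, Bool.xor_comm (c i)]
    rcases hv with hv | ⟨v', hv', rfl⟩ <;> rcases hw with hw | ⟨w', hw', rfl⟩
    · exact Or.inl (span_xorv cs v hv w hw)
    · exact Or.inr ⟨xorv v w', span_xorv cs v hv w' hw', by funext i; simp [xorv]⟩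
    · exact Or.inr ⟨xorv v' w, span_xorv cs v' hv' w hw, (key v' w).symm⟩
    · refine Or.inl ?_
      rw [show xorv (xorv v' c) (xorv w' c) = xorv v' w' by
        funext i; cases h : c i <;> simp [xorv, h]]
      exact span_xorv cs v' hv' w' hw'

/-- The vectors whose addition would bring two sums too close to being complementary. -/
def forbidden (τ : ℕ) (cs : List (Fin d → Bool)) : Finset (Fin d → Bool) :=
  ((span cs).toFinset ×ˢ Finset.univ.filter fun S : Finset (Fin d) => S.card < τ).image
    fun p => fun i => xor (p.1 i) (decide (i ∉ p.2))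

theorem far_cons {τ : ℕ} {cs : List (Fin d → Bool)} (hfar : Far τ cs) {c : Fin d → Bool}
    (hc : c ∉ forbidden τ cs) : Far τ (c :: cs) := by
  have cross : ∀ v ∈ span cs, ∀ w ∈ span cs,
      τ ≤ (Finset.univ.filter fun i => v i = xorv w c i).card := by
    intro v hv w hw
    by_contra hlt
    apply hc
    refine Finset.mem_image.mpr ⟨(xorv v w, Finset.univ.filter fun i => v i = xorv w c i), ?_, ?_⟩
    · exact Finset.mem_product.mpr ⟨List.mem_toFinset.mpr (span_xorv cs v hv w hw),
        Finset.mem_filter.mpr ⟨Finset.mem_univ _, Nat.not_le.mp hlt⟩⟩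
    · funext i
      simp only [Finset.mem_filter, Finset.mem_univ, true_and]
      cases hv' : v i <;> cases hw' : w i <;> cases hc' : c i <;> simp [xorv, hv', hw', hc']
  intro v hv w hw
  simp only [span, List.mem_append, List.mem_map] at hv hw
  rcases hv with hv | ⟨v', hv', rfl⟩ <;> rcases hw with hw | ⟨w', hw', rfl⟩
  · exact hfar v hv w hw
  · exact cross v hv w' hw'
  · refine (cross w hw v' hv').trans (le_of_eq ?_)
    exact congrArg Finset.card (Finset.filter_congr fun i _ => eq_comm)
  · rw [agree_xorv]; exact hfar v' hv' w' hw'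

/-- The small nonempty sets on which all generators are even. -/
noncomputable def undetected (τ : ℕ) (cs : List (Fin d → Bool)) : Finset (Finset (Fin d)) :=
  Finset.univ.filter fun S => S.Nonempty ∧ S.card < τ ∧ ∀ c ∈ cs, chi S c = 1

theorem two_mul_even_card (S : Finset (Fin d)) (hS : S.Nonempty) :
    2 * (Finset.univ.filter fun c : Fin d → Bool => chi S c = 1).card = 2 ^ d := by
  obtain ⟨a, ha⟩ := hS
  set Ev := Finset.univ.filter fun c : Fin d → Bool => chi S c = 1 with hEv
  have himg : Ev.image (flipAt a) = Finset.univ.filter fun c : Fin d → Bool => ¬ chi S c = 1 := by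
    ext c
    simp only [Finset.mem_image, Finset.mem_filter, Finset.mem_univ, true_and, hEv]
    constructor
    · rintro ⟨x, hx, rfl⟩
      rw [chi_flipAt, if_pos ha, hx]
      norm_num
    · intro hc
      refine ⟨flipAt a c, ?_, flipAt_invol a c⟩
      rw [chi_flipAt, if_pos ha, (chi_cases S c).resolve_left hc]
      norm_num
  have hcard : (Ev.image (flipAt a)).card = Ev.card :=
    Finset.card_image_of_injective _ (flipAt_invol a).injective
  have := Finset.card_filter_add_card_filter_not (s := (Finset.univ : Finset (Fin d → Bool)))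
    (fun c => chi S c = 1)
  rw [← hEv, ← himg, hcard, Finset.card_univ, Fintype.card_fun, Fintype.card_bool,
    Fintype.card_fin] at this
  omega

theorem exists_good_next (τ : ℕ) (cs : List (Fin d → Bool))
    (hforb : 8 * (forbidden τ cs).card ≤ 2 ^ d) :
    ∃ c, c ∉ forbidden τ cs ∧ 7 * (undetected τ (c :: cs)).card ≤ 4 * (undetected τ cs).card := by
  classical
  set U := undetected τ cs with hU
  have hcons : ∀ c, undetected τ (c :: cs) = U.filter fun S => chi S c = 1 := by
    intro c; ext S; simp [hU, undetected]; tauto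
  by_contra hno
  push Not at hno
  set Al := Finset.univ.filter fun c : Fin d → Bool => c ∉ forbidden τ cs with hAl
  have hAlc : Al.card + (forbidden τ cs).card = 2 ^ d := by
    have := Finset.card_filter_add_card_filter_not (s := (Finset.univ : Finset (Fin d → Bool)))
      (fun c => c ∉ forbidden τ cs)
    rw [← hAl] at this
    simpa using this
  have hlow : Al.card * (4 * U.card + 1) ≤ ∑ c ∈ Al, 7 * (undetected τ (c :: cs)).card := by
    rw [← smul_eq_mul, ← Finset.sum_const]
    exact Finset.sum_le_sum fun c hc => hno c (Finset.mem_filter.mp hc).2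
  have hup : 2 * ∑ c ∈ Al, 7 * (undetected τ (c :: cs)).card ≤ 7 * (U.card * 2 ^ d) := by
    rw [← Finset.mul_sum, mul_left_comm]
    refine Nat.mul_le_mul_left 7 ?_
    refine le_trans (Nat.mul_le_mul_left 2 (Finset.sum_le_sum_of_subset (Finset.subset_univ Al))) ?_
    simp only [hcons, Finset.card_filter]
    rw [Finset.sum_comm, Finset.mul_sum, ← smul_eq_mul, ← Finset.sum_const]
    refine Finset.sum_le_sum fun S hS => le_of_eq ?_
    rw [← Finset.card_filter]
    exact two_mul_even_card S (Finset.mem_filter.mp hS).2.1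
  have hpos := Nat.two_pow_pos d
  nlinarith

/-- The linear code. -/
theorem exists_generators (t : ℕ) (ht : 2 ≤ t) :
    ∃ cs : List (Fin (16 * t) → Bool), cs.length = 8 * t ∧ Detects t cs ∧ Far t cs := by
  suffices H : ∀ j ≤ 8 * t, ∃ cs : List (Fin (16 * t) → Bool), cs.length = j ∧ Far t cs ∧
      7 ^ j * (undetected t cs).card ≤ 4 ^ j * 2 ^ (6 * t) by
    obtain ⟨cs, hlen, hfar, hU⟩ := H (8 * t) le_rfl
    refine ⟨cs, hlen, fun S hne hcard => ?_, hfar⟩
    by_contra hno
    push Not at hno
    have h1 : 1 ≤ (undetected t cs).card :=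
      Finset.card_pos.mpr ⟨S, Finset.mem_filter.mpr
        ⟨Finset.mem_univ _, hne, hcard, fun c hc => (chi_cases S c).resolve_right (hno c hc)⟩⟩
    have h2 : 4 ^ (8 * t) * 2 ^ (6 * t) < 7 ^ (8 * t) := by
      rw [pow_mul, pow_mul 2, pow_mul 7, ← mul_pow]
      exact Nat.pow_lt_pow_left (by norm_num) (by omega)
    have := Nat.mul_le_mul_left (7 ^ (8 * t)) h1
    omega
  intro j
  induction j with
  | zero =>
    intro _
    refine ⟨[], rfl, zero_far t (by omega), ?_⟩
    simp only [pow_zero, one_mul]
    refine le_trans (Finset.card_le_card fun S hS => ?_) (small_sets_card t)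
    exact Finset.mem_filter.mpr ⟨Finset.mem_univ _, (Finset.mem_filter.mp hS).2.2.1⟩
  | succ j ih =>
    intro hj
    obtain ⟨cs, hlen, hfar, hU⟩ := ih (by omega)
    have hforb : 8 * (forbidden t cs).card ≤ 2 ^ (16 * t) := by
      have h1 : (forbidden t cs).card ≤ 2 ^ j * 2 ^ (6 * t) := by
        refine Finset.card_image_le.trans ?_
        rw [Finset.card_product]
        refine Nat.mul_le_mul ((List.toFinset_card_le _).trans ?_) (small_sets_card t)
        rw [length_span, hlen]
      have h2 : 2 ^ 3 * (2 ^ j * 2 ^ (6 * t)) ≤ 2 ^ (16 * t) := by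
        rw [← pow_add, ← pow_add]
        exact Nat.pow_le_pow_right (by norm_num) (by omega)
      have e3 : (2 : ℕ) ^ 3 = 8 := by norm_num
      rw [e3] at h2
      omega
    obtain ⟨c, hc, hc7⟩ := exists_good_next t cs hforb
    refine ⟨c :: cs, by simp [hlen], far_cons hfar hc, ?_⟩
    calc 7 ^ (j + 1) * (undetected t (c :: cs)).card
        = 7 ^ j * (7 * (undetected t (c :: cs)).card) := by ring
      _ ≤ 7 ^ j * (4 * (undetected t cs).card) := Nat.mul_le_mul_left _ hc7
      _ = 4 * (7 ^ j * (undetected t cs).card) := by ring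
      _ ≤ 4 * (4 ^ j * 2 ^ (6 * t)) := Nat.mul_le_mul_left _ hU
      _ = _ := by ring

/-! ### The binary code -/

/-- The piece of length `s` at position `p`. -/
def piece (l : List Bool) (p s : ℕ) : List Bool := (l.drop p).take s

theorem length_piece {l : List Bool} {p s : ℕ} (h : p + s ≤ l.length) :
    (piece l p s).length = s := by
  simp [piece]; omega

/-- Two words have no pieces of length `s` sharing a subsequence of length `j`. -/
def Apart (ℓ s j : ℕ) (u v : List Bool) : Prop :=
  ∀ p q, p + s ≤ ℓ → q + s ≤ ℓ → ∀ Z, Z <+ piece u p s → Z <+ piece v q s → Z.length < j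

theorem Apart.symm {ℓ s j : ℕ} {u v : List Bool} (h : Apart ℓ s j u v) : Apart ℓ s j v u :=
  fun p q hp hq Z h1 h2 => h q p hq hp Z h2 h1

/-- The words with a piece at `q` close to a given piece of a given word. -/
def clash (ℓ s j : ℕ) (u : List Bool) (p q : ℕ) : Finset (List Bool) :=
  ((superWords q []) ×ˢ (nearWords s j (piece u p s) ×ˢ superWords (ℓ - q - s) [])).image
    fun x => x.1 ++ x.2.1 ++ x.2.2

theorem mem_clash {ℓ s j : ℕ} {u x : List Bool} {p q : ℕ} (hx : x.length = ℓ) (hq : q + s ≤ ℓ)
    {Z : List Bool} (h1 : Z <+ piece u p s) (h2 : Z <+ piece x q s) (hj : j ≤ Z.length) :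
    x ∈ clash ℓ s j u p q := by
  refine Finset.mem_image.mpr ⟨(x.take q, piece x q s, x.drop (q + s)), ?_, ?_⟩
  · refine Finset.mem_product.mpr ⟨mem_superWords q [] _ (by simp; omega) (List.nil_sublist _),
      Finset.mem_product.mpr ⟨mem_nearWords (length_piece (by omega)) h2 h1 hj,
        mem_superWords _ [] _ (by simp; omega) (List.nil_sublist _)⟩⟩
  · simp [piece, List.append_assoc, ← List.drop_drop, List.take_append_drop]

theorem card_clash {ℓ : ℕ} (t : ℕ) (u : List Bool) (hu : u.length = ℓ) (p q : ℕ)
    (hp : p + 16 * t ≤ ℓ) (hq : q + 16 * t ≤ ℓ) :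
    (clash ℓ (16 * t) (15 * t) u p q).card * 2 ^ (3 * t) ≤ 2 ^ ℓ := by
  have h1 := card_superWords q []
  have h2 := card_nearWords (16 * t) (15 * t) (piece u p (16 * t))
  have h3 := card_superWords (ℓ - q - 16 * t) []
  rw [length_piece (hu ▸ hp), ← Nat.choose_symm (by omega : 15 * t ≤ 16 * t),
    show 16 * t - 15 * t = t by omega] at h2
  simp only [List.length_nil, Nat.choose_zero_right, one_mul, Nat.sub_zero] at h1 h3
  have h4 : (clash ℓ (16 * t) (15 * t) u p q).card ≤
      2 ^ q * (2 ^ (6 * t) * (2 ^ (6 * t) * 2 ^ t) * 2 ^ (ℓ - q - 16 * t)) := by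
    refine Finset.card_image_le.trans ?_
    rw [Finset.card_product, Finset.card_product]
    exact Nat.mul_le_mul h1 (Nat.mul_le_mul
      (h2.trans (Nat.mul_le_mul (choose_le t) (Nat.mul_le_mul (choose_le t) le_rfl))) h3)
  refine (Nat.mul_le_mul_right _ h4).trans ?_
  rw [← pow_add, ← pow_add, ← pow_add, ← pow_add, ← pow_add]
  exact Nat.pow_le_pow_right (by norm_num) (by omega)

theorem exists_code {α : Type*} [DecidableEq α] (a c : ℕ) (hc : a + 10 ≤ c) (Al : Finset α)
    (hAl : Al.card ≤ 2 ^ a) :
    ∃ E : α → List Bool, (∀ x, (E x).length = 128 * c) ∧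
      ∀ x ∈ Al, ∀ y ∈ Al, x ≠ y → Apart (128 * c) (32 * c) (30 * c) (E x) (E y) := by
  classical
  induction Al using Finset.induction with
  | empty => exact ⟨fun _ => List.replicate (128 * c) false, fun x => by simp, by simp⟩
  | @insert x Al hx ih =>
    rw [Finset.card_insert_of_notMem hx] at hAl
    obtain ⟨E, hlen, hE⟩ := ih (by omega)
    set ℓ := 128 * c with hℓ
    set bad := Al.biUnion fun y => (Finset.range (ℓ + 1 - 32 * c)).biUnion fun p =>
      (Finset.range (ℓ + 1 - 32 * c)).biUnion fun q => clash ℓ (32 * c) (30 * c) (E y) p q with hbad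
    have hcl : ∀ y p q, p + 32 * c ≤ ℓ → q + 32 * c ≤ ℓ →
        (clash ℓ (32 * c) (30 * c) (E y) p q).card * 2 ^ (6 * c) ≤ 2 ^ ℓ := by
      intro y p q hp hq
      have := card_clash (2 * c) (E y) (hlen y) p q (by omega) (by omega)
      rwa [show 16 * (2 * c) = 32 * c by omega, show 15 * (2 * c) = 30 * c by omega,
        show 3 * (2 * c) = 6 * c by omega] at this
    have hbadc : bad.card * 2 ^ (6 * c) ≤ Al.card * (ℓ * (ℓ * 2 ^ ℓ)) := by
      refine le_trans (Nat.mul_le_mul_right _ Finset.card_biUnion_le) ?_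
      rw [Finset.sum_mul, ← smul_eq_mul (Al.card), ← Finset.sum_const]
      refine Finset.sum_le_sum fun y _ => ?_
      refine le_trans (Nat.mul_le_mul_right _ Finset.card_biUnion_le) ?_
      rw [Finset.sum_mul]
      refine le_trans (Finset.sum_le_card_nsmul _ _ (ℓ * 2 ^ ℓ) fun p hp => ?_) ?_
      · refine le_trans (Nat.mul_le_mul_right _ Finset.card_biUnion_le) ?_
        rw [Finset.sum_mul]
        refine le_trans (Finset.sum_le_card_nsmul _ _ (2 ^ ℓ) fun q hq => ?_) ?_
        · simp only [Finset.mem_range] at hp hq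
          exact hcl y p q (by omega) (by omega)
        · rw [Finset.card_range, smul_eq_mul]
          exact Nat.mul_le_mul_right _ (by omega)
      · rw [Finset.card_range, smul_eq_mul]
        exact Nat.mul_le_mul_right _ (by omega)
    have hlt : bad.card < 2 ^ ℓ := by
      refine Nat.lt_of_mul_lt_mul_right (a := 2 ^ (6 * c)) (hbadc.trans_lt ?_)
      have hcpow : c ≤ 2 ^ c := (Nat.lt_two_pow_self).le
      have hl2 : ℓ * ℓ ≤ 2 ^ (14 + (c + c)) := by
        rw [pow_add, pow_add, hℓ]
        calc 128 * c * (128 * c) = 2 ^ 14 * (c * c) := by ring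
          _ ≤ _ := Nat.mul_le_mul_left _ (Nat.mul_le_mul hcpow hcpow)
      calc Al.card * (ℓ * (ℓ * 2 ^ ℓ)) = Al.card * (ℓ * ℓ) * 2 ^ ℓ := by ring
        _ ≤ 2 ^ (a + (14 + (c + c))) * 2 ^ ℓ := by
          refine Nat.mul_le_mul_right _ ?_
          rw [pow_add]
          exact Nat.mul_le_mul (by omega) hl2
        _ < 2 ^ (6 * c) * 2 ^ ℓ :=
          (Nat.mul_lt_mul_right (Nat.two_pow_pos ℓ)).mpr
            (Nat.pow_lt_pow_right (by norm_num) (by omega))
        _ = _ := Nat.mul_comm _ _
    obtain ⟨u, hu⟩ : ∃ u : Fin ℓ → Bool, List.ofFn u ∉ bad := by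
      by_contra hall
      push Not at hall
      have h1 : (Finset.univ.image fun u : Fin ℓ → Bool => List.ofFn u).card ≤ bad.card :=
        Finset.card_le_card fun l hl => by
          obtain ⟨u, _, rfl⟩ := Finset.mem_image.mp hl
          exact hall u
      rw [Finset.card_image_of_injective _ List.ofFn_injective] at h1
      simp at h1
      omega
    refine ⟨Function.update E x (List.ofFn u), fun y => ?_, ?_⟩
    · by_cases hy : y = x
      · subst hy; simp
      · simp [hy, hlen y]
    · have hnew : ∀ y ∈ Al, Apart ℓ (32 * c) (30 * c) (E y) (List.ofFn u) := by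
        intro y hy p q hp hq Z h1 h2
        by_contra hz
        refine hu (Finset.mem_biUnion.mpr ⟨y, hy, Finset.mem_biUnion.mpr ⟨p, ?_,
          Finset.mem_biUnion.mpr ⟨q, ?_, mem_clash (by simp) hq h1 h2 (Nat.not_lt.mp hz)⟩⟩⟩)
        · simp only [Finset.mem_range]; omega
        · simp only [Finset.mem_range]; omega
      intro y hy z hz hne
      rcases Finset.mem_insert.mp hy with rfl | hy' <;> rcases Finset.mem_insert.mp hz with rfl | hz'
      · exact absurd rfl hne
      · rw [Function.update_self, Function.update_of_ne (fun h : z = y => hne h.symm)]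
        exact (hnew z hz').symm
      · rw [Function.update_self, Function.update_of_ne hne]
        exact hnew y hy'
      · have ey : y ≠ x := fun h => by subst h; exact hx hy'
        have ez : z ≠ x := fun h => by subst h; exact hx hz'
        rw [Function.update_of_ne ey, Function.update_of_ne ez]
        exact hE y hy' z hz' hne

end Vale.Agent.P238.Rec
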