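import Vale.Agent.P238.Rec.Code
import Vale.Agent.P238.Rec.Base

/-!
# Binary encodings keep long common subsequences honest

If two encoded words have a long common subsequence then so do the words, as long as adjacent
symbols of the second word are different.
-/

namespace Vale.Agent.P238.Rec

open List Vale.Agent.P238

variable {α : Type*}

theorem sublist_split3 {β : Type*} {Z X1 X2 X3 : List β} (h : Z <+ X1 ++ X2 ++ X3) :
    ∃ a b e, Z = a ++ b ++ e ∧ a <+ X1 ∧ b <+ X2 ∧ e <+ X3 := by
  obtain ⟨a, b, rfl, ha, hb⟩ := List.sublist_append_iff.mp h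
  obtain ⟨a1, a2, rfl, ha1, ha2⟩ := List.sublist_append_iff.mp ha
  exact ⟨a1, a2, b, rfl, ha1, ha2, hb⟩

/-- A segment of a word close to a code word contains a piece close to a piece of the code word. -/
theorem piece_of_segment {u w Z : List Bool} {ℓ s q c : ℕ} (hu : u.length = ℓ) (hsl : s ≤ ℓ)
    (hZu : Z <+ u) (hZw : Z <+ w) (hlow : ℓ < Z.length + c) (hhigh : w.length < Z.length + c)
    (hq : q + s ≤ w.length) :
    ∃ p Z', p + s ≤ ℓ ∧ Z' <+ piece u p s ∧ Z' <+ piece w q s ∧ s ≤ Z'.length + 2 * c := by
  have ew : w = w.take q ++ piece w q s ++ w.drop (q + s) := by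
    simp [piece, List.append_assoc, ← List.drop_drop, List.take_append_drop]
  obtain ⟨a, b, e, rfl, ha, hb, he⟩ := sublist_split3 (X1 := w.take q) (X2 := piece w q s)
    (X3 := w.drop (q + s)) (ew ▸ hZw)
  have la := ha.length_le
  have le' := he.length_le
  have lb := hb.length_le
  rw [length_piece hq] at lb
  simp only [List.length_take, List.length_drop, List.length_append] at la le' hlow hhigh
  obtain ⟨r, r3, rfl, hab, he'⟩ := List.append_sublist_iff.mp hZu
  obtain ⟨r1, r2, rfl, ha', hb'⟩ := List.append_sublist_iff.mp hab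
  have la' := ha'.length_le
  have le'' := he'.length_le
  simp only [List.length_append] at hu
  obtain ⟨x, y, hxy, hx, hy⟩ := List.sublist_append_iff.mp
    ((List.take_append_drop s r2).symm ▸ hb')
  have ly := hy.length_le
  have lx : b.length = x.length + y.length := by rw [hxy, List.length_append]
  simp only [List.length_drop] at ly
  refine ⟨min r1.length (ℓ - s), x, by omega, hx.trans ?_, ?_, by omega⟩
  · unfold piece
    by_cases hr : r1.length ≤ ℓ - s
    · rw [Nat.min_eq_left hr, List.append_assoc, List.drop_left, List.take_append]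
      exact List.sublist_append_left _ _
    · rw [Nat.min_eq_right (by omega)]
      rw [List.take_of_length_le (l := (r1 ++ r2 ++ r3).drop (ℓ - s))
        (by simp; omega)]
      refine ((List.take_sublist _ _).trans (List.sublist_append_left r2 r3)).trans ?_
      have h0 := List.drop_sublist_drop_left (r1 ++ (r2 ++ r3)) (i := ℓ - s) (j := r1.length) (by omega)
      rw [List.drop_left] at h0
      simpa [List.append_assoc] using h0
  · exact (hxy ▸ List.sublist_append_left x y).trans hb

theorem enc_drop (E : α → List Bool) {ℓ : ℕ} (hE : ∀ a, (E a).length = ℓ) :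
    ∀ (Y : List α) (j : ℕ), (Y.flatMap E).drop (j * ℓ) = (Y.drop j).flatMap E
  | _, 0 => by simp
  | [], j + 1 => by simp
  | y :: Y, j + 1 => by
    rw [List.flatMap_cons, List.drop_succ_cons, ← enc_drop E hE Y j,
      show (j + 1) * ℓ = (E y).length + j * ℓ by rw [hE]; ring, List.drop_length_add_append]

theorem enc_block (E : α → List Bool) {ℓ : ℕ} (hE : ∀ a, (E a).length = ℓ) (Y : List α)
    (j o s : ℕ) (hj : j < Y.length) (ho : o + s ≤ ℓ) :
    piece (Y.flatMap E) (j * ℓ + o) s = piece (E Y[j]) o s := by
  unfold piece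
  rw [← List.drop_drop, enc_drop E hE, List.drop_eq_getElem_cons hj, List.flatMap_cons,
    List.drop_append_of_le_length (by rw [hE]; omega),
    List.take_append_of_le_length (by simp [hE]; omega)]

theorem piece_of_prefix {D R : List Bool} {q s : ℕ} (h : q + s ≤ D.length) :
    piece (D ++ R) q s = piece D q s := by
  unfold piece
  rw [List.drop_append_of_le_length (by omega), List.take_append_of_le_length (by simp; omega)]

theorem piece_drop (l : List Bool) (p q s : ℕ) : piece (l.drop p) q s = piece l (p + q) s := by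
  simp [piece, List.drop_drop]

/-- Long common subsequences of encodings come from long common subsequences of the words. -/
theorem decode {c : ℕ} (hc : 0 < c) (E : α → List Bool) (hE : ∀ a, (E a).length = 128 * c)
    (Al : Set α) (hap : ∀ a ∈ Al, ∀ b ∈ Al, a ≠ b → Apart (128 * c) (32 * c) (30 * c) (E a) (E b))
    (Y : List α) (hY : ∀ y ∈ Y, y ∈ Al) (hch : Y.IsChain (· ≠ ·)) :
    ∀ (X : List α), (∀ x ∈ X, x ∈ Al) → ∀ p, p ≤ 128 * c * Y.length →
    ∀ Z, Z <+ X.flatMap E → Z <+ (Y.flatMap E).drop p →
      ∃ W, W <+ X ∧ W <+ Y.drop ((p + 64 * c - 1) / (128 * c)) ∧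
        c * X.length + 2 * Z.length ≤ 128 * c * X.length + (128 * c * Y.length - p) + c * W.length
  | [], _, p, _, Z, hZ, _ => by
    refine ⟨[], List.Sublist.refl _, List.nil_sublist _, ?_⟩
    simp at hZ; subst hZ; simp
  | x :: X, hX, p, hp, Z, hZ, hZD => by
    have hlenY : (Y.flatMap E).length = (128 * c) * Y.length := by
      rw [List.length_flatMap]; simp [hE]; ring
    rw [List.flatMap_cons] at hZ
    obtain ⟨Z1, Z2, rfl, hZ1, hZ2⟩ := List.sublist_append_iff.mp hZ
    obtain ⟨w, r2, hwr, hZ1w, hZ2r⟩ := List.append_sublist_iff.mp hZD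
    have hwlen : w.length + r2.length = (128 * c) * Y.length - p := by
      have := congrArg List.length hwr
      rw [List.length_drop, List.length_append, hlenY] at this
      omega
    have hr2 : r2 = (Y.flatMap E).drop (p + w.length) := by
      rw [← List.drop_drop, hwr, List.drop_left]
    obtain ⟨W, hWX, hWY, hW⟩ := decode hc E hE Al hap Y hY hch X
      (fun a ha => hX a (List.mem_cons_of_mem _ ha)) (p + w.length) (by omega) Z2 hZ2 (hr2 ▸ hZ2r)
    have l1 := hZ1.length_le
    rw [hE] at l1
    have l2 := hZ1w.length_le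
    simp only [List.length_cons, List.length_append]
    have hmul : c * (X.length + 1) = c * X.length + c := by ring
    have hmul' : (128 * c) * (X.length + 1) = (128 * c) * X.length + (128 * c) := by ring
    have hJmono : (p + 64 * c - 1) / (128 * c) ≤ (p + w.length + 64 * c - 1) / (128 * c) :=
      Nat.div_le_div_right (by omega)
    by_cases hgood : (128 * c) < Z1.length + c ∧ w.length < Z1.length + c
    swap
    · exact ⟨W, hWX.cons _, hWY.trans (List.drop_sublist_drop_left _ hJmono), by omega⟩
    obtain ⟨hlow, hhigh⟩ := hgood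
    -- the piece at offset `q` of the segment, inside one block, has the symbol `x`
    have same : ∀ j o q, q + 32 * c ≤ w.length → p + q = j * (128 * c) + o → o + 32 * c ≤ (128 * c) →
        ∃ hj : j < Y.length, Y[j] = x := by
      intro j o q hq hpq ho
      have hj : j < Y.length := by
        by_contra hj
        have : (128 * c) * Y.length ≤ j * (128 * c) := by
          rw [mul_comm j]; exact Nat.mul_le_mul_left _ (Nat.not_lt.mp hj)
        omega
      refine ⟨hj, ?_⟩
      by_contra hne
      obtain ⟨p', Z', hp', hu', hw', hlong⟩ :=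
        piece_of_segment (hE x) (by omega) hZ1 hZ1w hlow hhigh hq
      rw [← piece_of_prefix (R := r2) hq, ← hwr, piece_drop, hpq,
        enc_block E hE Y j o _ hj ho] at hw'
      have := hap x (hX x List.mem_cons_self) Y[j] (hY _ (List.getElem_mem hj))
        (fun h => hne h.symm) p' o hp' ho Z' hu' hw'
      omega
    set j0 := p / (128 * c) with hj0
    set o := p % (128 * c) with ho
    have hpo : p = j0 * (128 * c) + o := by rw [mul_comm]; exact (Nat.div_add_mod p (128 * c)).symm
    have hol : o < (128 * c) := Nat.mod_lt _ (by omega)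
    -- the block containing more than half of the segment
    have owner : ∃ j, (p + 64 * c - 1) / (128 * c) ≤ j ∧ j + 1 ≤ (p + w.length + 64 * c - 1) / (128 * c) ∧
        ∃ hj : j < Y.length, Y[j] = x := by
      by_cases h1 : o < 64 * c
      · refine ⟨j0, ?_, ?_, same j0 o 0 (by omega) (by omega) (by omega)⟩
        · rw [Nat.div_le_iff_le_mul_add_pred (by omega)]; rw [mul_comm (128 * c)]; omega
        · rw [Nat.le_div_iff_mul_le (by omega), Nat.succ_mul]; omega
      · have e1 : (j0 + 1) * (128 * c) = j0 * (128 * c) + (128 * c) := Nat.succ_mul _ _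
        obtain ⟨hj1, hx1⟩ := same (j0 + 1) 0 ((128 * c) - o) (by omega) (by omega) (by omega)
        by_cases h2 : (128 * c) + 64 * c < o + w.length
        · refine ⟨j0 + 1, ?_, ?_, hj1, hx1⟩
          · rw [Nat.div_le_iff_le_mul_add_pred (by omega)]; rw [mul_comm (128 * c)]; omega
          · rw [Nat.le_div_iff_mul_le (by omega), Nat.succ_mul]; omega
        · obtain ⟨hj, hx0⟩ := same j0 o 0 (by omega) (by omega) (by omega)
          exact absurd (hx0.trans hx1.symm) (List.isChain_iff_getElem.mp hch j0 hj1)
    obtain ⟨j, hj1, hj2, hjlt, hjx⟩ := owner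
    refine ⟨x :: W, hWX.cons_cons x, ?_, ?_⟩
    · refine List.Sublist.trans ?_ (List.drop_sublist_drop_left _ hj1)
      rw [List.drop_eq_getElem_cons hjlt, hjx]
      exact (hWY.trans (List.drop_sublist_drop_left _ hj2)).cons_cons x
    · rw [List.length_cons, show c * (W.length + 1) = c * W.length + c by ring]
      omega

/-- The edit distance of encodings is at least a constant fraction of the code length times the
number of symbols left out of the best common subsequence. -/
theorem editDist_enc_ge {c : ℕ} (hc : 0 < c) (E : α → List Bool)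
    (hE : ∀ a, (E a).length = 128 * c) (Al : Set α)
    (hap : ∀ a ∈ Al, ∀ b ∈ Al, a ≠ b → Apart (128 * c) (32 * c) (30 * c) (E a) (E b))
    (X Y : List α) (hlen : Y.length = X.length) (hX : ∀ x ∈ X, x ∈ Al) (hY : ∀ y ∈ Y, y ∈ Al)
    (hch : Y.IsChain (· ≠ ·)) (P : List Bool) :
    ∃ W, W <+ X ∧ W <+ Y ∧
      c * X.length ≤ c * W.length + 2 * editDist (X.flatMap E ++ P) (Y.flatMap E ++ P) := by
  obtain ⟨l, hl1, hl2, hl⟩ := chain_common (editDist_chain (X.flatMap E ++ P) (Y.flatMap E ++ P))
  obtain ⟨a, b, hab, ha, hb⟩ := List.sublist_append_iff.mp hl1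
  obtain ⟨a', b', hab', ha', hb'⟩ := List.sublist_append_iff.mp hl2
  have key : ∃ Z, Z <+ X.flatMap E ∧ Z <+ Y.flatMap E ∧ l.length ≤ Z.length + P.length := by
    rcases le_total a.length a'.length with h | h
    · refine ⟨a, ha, (List.IsPrefix.sublist
        (List.prefix_of_prefix_length_le ⟨b, hab.symm⟩ ⟨b', hab'.symm⟩ h)).trans ha', ?_⟩
      rw [hab, List.length_append]; have := hb.length_le; omega
    · refine ⟨a', (List.IsPrefix.sublist
        (List.prefix_of_prefix_length_le ⟨b', hab'.symm⟩ ⟨b, hab.symm⟩ h)).trans ha, ha', ?_⟩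
      rw [hab', List.length_append]; have := hb'.length_le; omega
  obtain ⟨Z, hZ1, hZ2, hZ⟩ := key
  obtain ⟨W, hW1, hW2, hW⟩ := decode hc E hE Al hap Y hY hch X hX 0 (Nat.zero_le _) Z hZ1
    (by simpa using hZ2)
  refine ⟨W, hW1, hW2.trans (List.drop_sublist _ _), ?_⟩
  rw [List.length_append, List.length_flatMap] at hl
  simp only [hE, List.map_const', List.sum_replicate, smul_eq_mul] at hl
  rw [hlen] at hW
  have := mul_comm X.length (128 * c)
  omega

end Vale.Agent.P238.Rec
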