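import Vale.Agent.P238.Cube
import Vale.Agent.P238.Defs

/-!
# The Poincaré inequality on a quotient of the cube by a linear code

For generators detecting every small nonempty set of coordinates, the average displacement of a map
into `ℓ₁` by the all-ones vector is at most an average of its displacements by the unit vectors plus
its displacements by the generators.
-/

namespace Vale.Agent.P238.Rec

open Finset Vale.Agent.P238

variable {ι : Type*} [Fintype ι] [DecidableEq ι]

/-- Addition in the Boolean cube. -/
def xorv {κ : Type*} (g h : κ → Bool) : κ → Bool := fun i => xor (g i) (h i)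

/-- The all-ones vector. -/
def ones {κ : Type*} : κ → Bool := fun _ => true

/-- The vector supported at one coordinate. -/
def unitv {κ : Type*} [DecidableEq κ] (a : κ) : κ → Bool := fun i => decide (i = a)

theorem xorv_xorv {κ : Type*} (g h : κ → Bool) : xorv (xorv g h) h = g := by
  funext i; simp [xorv]

theorem av_xorv (h : ι → Bool) (f : (ι → Bool) → ℝ) : av (fun g => f (xorv g h)) = av f :=
  av_equiv (Function.Involutive.toPerm (fun g => xorv g h) fun g => xorv_xorv g h) f

omit [Fintype ι] [DecidableEq ι] in
theorem chi_xorv (S : Finset ι) (g h : ι → Bool) : chi S (xorv g h) = chi S g * chi S h := by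
  simp only [chi, ← Finset.prod_mul_distrib]
  refine Finset.prod_congr rfl fun i _ => ?_
  cases hg : g i <;> cases hh : h i <;> simp [xorv, sg, hg, hh]

theorem coef_xorv (G : (ι → Bool) → ℝ) (h : ι → Bool) (S : Finset ι) :
    coef (fun g => G (xorv g h)) S = chi S h * coef G S := by
  unfold coef
  rw [← av_xorv h (fun g => G (xorv g h) * chi S g), ← av_mul_left]
  refine av_congr fun g => ?_
  rw [xorv_xorv, chi_xorv]
  ring

/-- The average absolute displacement by a translation. -/
noncomputable def dd (G : (ι → Bool) → ℝ) (h : ι → Bool) : ℝ :=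
  av fun g => |G g - G (xorv g h)|

theorem dd_cut {G : (ι → Bool) → ℝ} (hG : ∀ g, G g = 0 ∨ G g = 1) (h : ι → Bool) :
    dd G h = ∑ S : Finset ι, 2 * (1 - chi S h) * coef G S ^ 2 := by
  have e : dd G h = av fun g => (G g - G (xorv g h)) ^ 2 := by
    refine av_congr fun g => ?_
    rcases hG g with a | a <;> rcases hG (xorv g h) with b | b <;> simp [a, b]
  rw [e, parseval (fun g => G g - G (xorv g h))]
  refine Finset.sum_congr rfl fun S _ => ?_
  rw [coef_sub, coef_xorv]
  have := chi_mul_self S h
  linear_combination (coef G S ^ 2) * this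

omit [Fintype ι] [DecidableEq ι] in
theorem chi_cases (S : Finset ι) (h : ι → Bool) : chi S h = 1 ∨ chi S h = -1 :=
  mul_self_eq_one_iff.mp (chi_mul_self S h)

omit [Fintype ι] [DecidableEq ι] in
theorem chi_le_one (S : Finset ι) (h : ι → Bool) : chi S h ≤ 1 := by
  rcases chi_cases S h with e | e <;> rw [e] <;> norm_num

omit [Fintype ι] [DecidableEq ι] in
theorem neg_one_le_chi (S : Finset ι) (h : ι → Bool) : -1 ≤ chi S h := by
  rcases chi_cases S h with e | e <;> rw [e] <;> norm_num

omit [Fintype ι] in
theorem chi_unitv (S : Finset ι) (a : ι) : chi S (unitv a) = if a ∈ S then -1 else 1 := by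
  have : ∀ i, sg (unitv a i) = if i = a then -1 else 1 := fun i => by
    by_cases h : i = a <;> simp [unitv, sg, h]
  simp [chi, this, Finset.prod_ite_eq']

/-- The side of the inequality with the unit vectors and the generators. -/
noncomputable def rhs (τ : ℕ) (cs : List (ι → Bool)) (d : (ι → Bool) → ℝ) : ℝ :=
  (∑ a, d (unitv a)) / τ + (cs.map d).sum

theorem rhs_lin (τ : ℕ) (cs : List (ι → Bool)) (c : ℝ) (d e : (ι → Bool) → ℝ) :
    rhs τ cs (fun h => d h + c * e h) = rhs τ cs d + c * rhs τ cs e := by
  have : (cs.map fun h => d h + c * e h).sum = (cs.map d).sum + c * (cs.map e).sum := by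
    induction cs with
    | nil => simp
    | cons a cs ih => simp only [List.map_cons, List.sum_cons, ih]; ring
  simp only [rhs, this, Finset.sum_add_distrib, ← Finset.mul_sum, add_div, mul_div_assoc]
  ring

/-- Every nonempty set of fewer than `τ` coordinates is odd on some generator. -/
def Detects (τ : ℕ) (cs : List (ι → Bool)) : Prop :=
  ∀ S : Finset ι, S.Nonempty → S.card < τ → ∃ c ∈ cs, chi S c = -1

theorem cut_le {τ : ℕ} {cs : List (ι → Bool)} (hτ : 0 < τ) (hdet : Detects τ cs)
    {G : (ι → Bool) → ℝ} (hG : ∀ g, G g = 0 ∨ G g = 1) :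
    dd G ones ≤ rhs τ cs (dd G) := by
  have hτ' : (0 : ℝ) < τ := by exact_mod_cast hτ
  have hlist : ∀ l : List (ι → Bool),
      (l.map (dd G)).sum = ∑ S : Finset ι, (l.map fun c => 2 * (1 - chi S c)).sum * coef G S ^ 2 := by
    intro l
    induction l with
    | nil => simp
    | cons a l ih =>
      simp only [List.map_cons, List.sum_cons, ih, dd_cut hG a, add_mul, Finset.sum_add_distrib]
  have hunit : (∑ a, dd G (unitv a)) / τ
      = ∑ S : Finset ι, 4 * (S.card : ℝ) / τ * coef G S ^ 2 := by
    simp only [dd_cut hG, chi_unitv]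
    rw [Finset.sum_comm, Finset.sum_div]
    refine Finset.sum_congr rfl fun S _ => ?_
    have : ∀ a : ι, 2 * (1 - if a ∈ S then (-1 : ℝ) else 1) * coef G S ^ 2
        = if a ∈ S then 4 * coef G S ^ 2 else 0 := fun a => by split_ifs <;> ring
    rw [Finset.sum_congr rfl fun a _ => this a, Finset.sum_ite_mem, Finset.univ_inter,
      Finset.sum_const, nsmul_eq_mul]
    ring
  rw [rhs, hunit, hlist, ← Finset.sum_add_distrib, dd_cut hG]
  refine Finset.sum_le_sum fun S _ => ?_
  rw [← add_mul]
  refine mul_le_mul_of_nonneg_right ?_ (sq_nonneg _)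
  have hnn : 0 ≤ (cs.map fun c => 2 * (1 - chi S c)).sum := by
    refine List.sum_nonneg fun x hx => ?_
    obtain ⟨c, _, rfl⟩ := List.mem_map.mp hx
    nlinarith [chi_le_one S c]
  have h4 : 2 * (1 - chi S (ones : ι → Bool)) ≤ 4 := by
    nlinarith [neg_one_le_chi S (ones : ι → Bool)]
  rcases S.eq_empty_or_nonempty with rfl | hne
  · simpa [chi] using hnn
  by_cases hcard : S.card < τ
  · obtain ⟨c, hc, hodd⟩ := hdet S hne hcard
    have : 2 * (1 - chi S c) ≤ (cs.map fun c => 2 * (1 - chi S c)).sum := by
      refine List.single_le_sum (fun x hx => ?_) _ (List.mem_map.mpr ⟨c, hc, rfl⟩)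
      obtain ⟨c', _, rfl⟩ := List.mem_map.mp hx
      nlinarith [chi_le_one S c']
    rw [hodd] at this
    have h0 : 0 ≤ 4 * (S.card : ℝ) / τ := by positivity
    linarith
  · have : (4 : ℝ) ≤ 4 * (S.card : ℝ) / τ := by
      rw [le_div_iff₀ hτ']
      have : (τ : ℝ) ≤ S.card := by exact_mod_cast Nat.not_lt.mp hcard
      linarith
    linarith

/-- Every real function is a nonnegative combination of cuts, so it obeys the cut inequality. -/
theorem real_le {τ : ℕ} {cs : List (ι → Bool)} (hτ : 0 < τ) (hdet : Detects τ cs)
    (G : (ι → Bool) → ℝ) : dd G ones ≤ rhs τ cs (dd G) := by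
  classical
  suffices H : ∀ (N : ℕ) (G : (ι → Bool) → ℝ), (Finset.univ.image G).card ≤ N →
      dd G ones ≤ rhs τ cs (dd G) from H _ G le_rfl
  intro N
  induction N with
  | zero =>
    intro G hN
    exfalso
    have : (Finset.univ.image G).Nonempty := Finset.univ_nonempty.image _
    have := this.card_pos
    omega
  | succ N ih =>
    intro G hN
    set I := Finset.univ.image G with hI
    have hne : I.Nonempty := Finset.univ_nonempty.image _
    set top := I.max' hne with htop
    rcases (I.erase top).eq_empty_or_nonempty with he | he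
    · have hconst : ∀ x, G x = top := fun x => by
        by_contra hx
        have : G x ∈ I.erase top :=
          Finset.mem_erase.mpr ⟨hx, Finset.mem_image_of_mem G (Finset.mem_univ x)⟩
        simp [he] at this
      have h0 : dd G = fun _ => (0 : ℝ) := by
        funext h
        simp [dd, hconst, av_const]
      rw [h0]
      simp [rhs]
    · set next := (I.erase top).max' he with hnext
      have hle : next ≤ top := Finset.le_max' _ _ (Finset.mem_of_mem_erase (Finset.max'_mem _ he))
      set G' : (ι → Bool) → ℝ := fun x => min (G x) next with hG'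
      set u : (ι → Bool) → ℝ := fun x => if G x = top then 1 else 0 with hu
      have hcut : ∀ x, u x = 0 ∨ u x = 1 := fun x => by simp only [hu]; split_ifs <;> simp
      have hcases : ∀ x, (G x = top ∧ G' x = next ∧ u x = 1) ∨
          (G x ≤ next ∧ G' x = G x ∧ u x = 0) := by
        intro x
        by_cases hx : G x = top
        · left
          simp [hG', hu, hx, hle]
        · right
          have : G x ≤ next := Finset.le_max' _ _
            (Finset.mem_erase.mpr ⟨hx, Finset.mem_image_of_mem G (Finset.mem_univ x)⟩)
          simp [hG', hu, hx, this]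
      have hsplit : dd G = fun h => dd G' h + (top - next) * dd u h := by
        funext h
        simp only [dd]
        rw [← av_mul_left, ← av_add]
        refine av_congr fun x => ?_
        rcases hcases x with ⟨a1, a2, a3⟩ | ⟨a1, a2, a3⟩ <;>
          rcases hcases (xorv x h) with ⟨b1, b2, b3⟩ | ⟨b1, b2, b3⟩ <;> rw [a2, a3, b2, b3]
        · simp [a1, b1]
        · rw [a1, abs_of_nonneg (by linarith),
            abs_of_nonneg (by linarith : (0 : ℝ) ≤ next - G (xorv x h))]
          simp
        · rw [b1, abs_of_nonpos (by linarith), abs_of_nonpos (by linarith : G x - next ≤ (0 : ℝ))]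
          simp
        · simp
      have hcard : (Finset.univ.image G').card ≤ N := by
        refine le_trans (Finset.card_le_card (t := I.erase top) fun v hv => ?_) ?_
        · obtain ⟨x, _, rfl⟩ := Finset.mem_image.mp hv
          rcases hcases x with ⟨_, b, _⟩ | ⟨b0, b, b1⟩
          · rw [b]; exact Finset.max'_mem _ he
          · rw [b]
            refine Finset.mem_erase.mpr
              ⟨fun hx => ?_, Finset.mem_image_of_mem G (Finset.mem_univ x)⟩
            simp [hu, hx] at b1
        · rw [Finset.card_erase_of_mem (Finset.max'_mem _ hne)]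
          omega
      rw [hsplit, rhs_lin]
      exact add_le_add (ih G' hcard)
        (mul_le_mul_of_nonneg_left (cut_le hτ hdet hcut) (by linarith))

/-- The average displacement of an `ℓ₁`-valued map. -/
noncomputable def nd (F : (ι → Bool) → EllOne) (h : ι → Bool) : ℝ :=
  av fun g => ‖F g - F (xorv g h)‖

theorem nd_hasSum (F : (ι → Bool) → EllOne) (h : ι → Bool) :
    HasSum (fun i : ℕ => dd (fun g => (F g : ℕ → ℝ) i) h) (nd F h) := by
  have H : ∀ g, HasSum (fun i : ℕ => |(F g : ℕ → ℝ) i - (F (xorv g h) : ℕ → ℝ) i|)
      ‖F g - F (xorv g h)‖ := by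
    intro g
    have := lp.hasSum_norm (p := 1) (by simp) (F g - F (xorv g h))
    simpa [Real.norm_eq_abs] using this
  simp only [dd, nd, av]
  exact (hasSum_sum fun g _ => H g).div_const _

/-- The inequality for maps into `ℓ₁`. -/
theorem norm_le {τ : ℕ} {cs : List (ι → Bool)} (hτ : 0 < τ) (hdet : Detects τ cs)
    (F : (ι → Bool) → EllOne) : nd F ones ≤ rhs τ cs (nd F) := by
  have hl : ∀ l : List (ι → Bool),
      HasSum (fun i : ℕ => (l.map (dd fun g => (F g : ℕ → ℝ) i)).sum) (l.map (nd F)).sum := by
    intro l
    induction l with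
    | nil => simpa using hasSum_zero
    | cons a l ih => simpa using (nd_hasSum F a).add ih
  have hr : HasSum (fun i : ℕ => rhs τ cs (dd fun g => (F g : ℕ → ℝ) i)) (rhs τ cs (nd F)) := by
    unfold rhs
    exact ((hasSum_sum fun a _ => nd_hasSum F (unitv a)).div_const _).add (hl cs)
  exact hasSum_le (fun i => real_le hτ hdet _) (nd_hasSum F ones) hr

end Vale.Agent.P238.Rec
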