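import Vale.Agent.P238.Rec.Upper
import Vale.Agent.P238.Rec.Encode

/-!
# The `ℓ₁` distortion of edit distance is at least `exp (c √(log n))`

`R` levels with `2048` tags, `1024` generators and `2 ^ (6 R + 11)` repetitions give words of binary
length `2 ^ O(R ²)`. A word and that of the complementary point are `32 ^ (-R)` of the length apart,
while any map controlled by the edit distance moves them `64 ^ (-R)` of the length on average.
-/

namespace Vale.Agent.P238.Rec

open List Vale.Agent.P238

/-- A list as a word of length `n`, padded with `false`. -/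
def padWord (n : ℕ) (l : List Bool) : Fin n → Bool := fun i => l.getD i false

theorem ofFn_padWord {n : ℕ} {l : List Bool} (h : l.length ≤ n) :
    List.ofFn (padWord n l) = l ++ List.replicate (n - l.length) false := by
  refine List.ext_getElem (by simp; omega) fun i h1 h2 => ?_
  simp only [List.getElem_ofFn, padWord, List.getD_eq_getElem?_getD]
  by_cases hi : i < l.length
  · simp [List.getElem_append_left, hi]
  · simp [List.getElem_append_right, Nat.not_lt.mp hi]

theorem wordDist_padWord {n : ℕ} {l l' : List Bool} (h : l.length ≤ n) (he : l'.length = l.length) :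
    wordDist (padWord n l) (padWord n l')
      = editDist (l ++ List.replicate (n - l.length) false)
          (l' ++ List.replicate (n - l.length) false) := by
  rw [wordDist, ofFn_padWord h, ofFn_padWord (he ▸ h), he]

/-- The bound with explicit parameters. -/
theorem main_param (R : ℕ) (hR : 1 ≤ R) (n : ℕ)
    (hn : 128 * (11 * R + 11) * wlen 2048 (2 ^ (6 * R + 11)) 1024 R ≤ n)
    (f : (Fin n → Bool) → EllOne) (A B : ℝ) (hA : 0 < A) (hB : 0 < B)
    (hf : ∀ x y, ‖f x - f y‖ ≤ A * (wordDist x y : ℝ) ∧ (wordDist x y : ℝ) ≤ B * ‖f x - f y‖) :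
    (2 : ℝ) ^ R / 512 ≤ A * B := by
  classical
  obtain ⟨cs, hk, hdet, hfar⟩ := exists_generators 128 (by norm_num)
  rw [show (8 : ℕ) * 128 = 1024 by norm_num] at hk
  set c := 11 * R + 11 with hc
  set L := 2 ^ (6 * R + 11) with hL
  set Al : Finset (Sym (16 * 128)) := (Finset.univ : Finset ((Fin R → Fin (16 * 128)) × Bool)).image
    fun p => (List.ofFn p.1, p.2) with hAl
  have hcard : Al.card ≤ 2 ^ (11 * R + 1) := by
    refine Finset.card_image_le.trans (le_of_eq ?_)
    simp only [Finset.card_univ, Fintype.card_prod, Fintype.card_fun, Fintype.card_fin,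
      Fintype.card_bool]
    rw [show (16 : ℕ) * 128 = 2 ^ 11 by norm_num, ← pow_mul, pow_succ]
  obtain ⟨E, hE, hap⟩ := exists_code (11 * R + 1) c (by omega) Al hcard
  set m := wlen (16 * 128) L cs.length R with hm
  have hmpos : 0 < m := pow_pos (Nat.mul_pos (by norm_num) (pow_pos (by positivity) _)) _
  have hmem : ∀ (y : Omega (16 * 128) R), ∀ s ∈ word L cs R y, s ∈ (Al : Set (Sym (16 * 128))) := by
    intro y s hs
    have hlen := path_length L cs R y s hs
    refine Finset.mem_coe.mpr (Finset.mem_image.mpr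
      ⟨(fun i => s.1[i.1]'(by omega), s.2), Finset.mem_univ _, ?_⟩)
    refine Prod.ext (List.ext_getElem (by simp [hlen]) fun i h1 h2 => ?_) rfl
    simp
  set enc : Omega (16 * 128) R → List Bool := fun y => (word L cs R y).flatMap E with henc
  have henclen : ∀ y, (enc y).length = 128 * c * m := fun y => by
    rw [henc, length_flatMap_const _ E _ hE, length_word, Nat.mul_comm]
  have hn' : 128 * c * m ≤ n := by rw [hm, hk]; exact hn
  set P := List.replicate (n - 128 * c * m) false with hP
  have hdist : ∀ y y', wordDist (padWord n (enc y)) (padWord n (enc y'))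
      = editDist (enc y ++ P) (enc y' ++ P) := fun y y' => by
    rw [wordDist_padWord (by rw [henclen]; exact hn') (by rw [henclen, henclen]), henclen]
  set G : Omega (16 * 128) R → EllOne := fun y => f (padWord n (enc y)) with hG
  have hcond : ∀ s < R, (cs.length : ℝ) * (128 : ℕ) * (((128 : ℕ) : ℝ) / 2) ^ s ≤ L := by
    intro s hs
    rw [hk, hL]
    push_cast
    rw [show (1024 : ℝ) * 128 = 2 ^ 17 by norm_num, show (128 : ℝ) / 2 = 2 ^ 6 by norm_num,
      ← pow_mul, ← pow_add]
    exact pow_le_pow_right₀ (by norm_num) (by omega)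
  have hupper := nd_ones_le L 128 cs (by norm_num) hdet R hcond (128 * c) E hE G A hA.le Unit
    (fun _ => fun _ => false) (fun y y' => by
      refine (hf _ _).1.trans (mul_le_mul_of_nonneg_left ?_ hA.le)
      have e : ∀ z : Omega (16 * 128) R, xorv z (fun _ => false) = z := fun z => by
        funext p; simp [xorv]
      simp only [Finset.univ_unique, Finset.sum_singleton, e]
      rw [hdist]
      exact_mod_cast (editDist_append_le _ _ P P).trans (by rw [editDist_self, Nat.add_zero]))
  have hcopies : 2 ≤ (2 * L) ^ cs.length := by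
    rw [hk]
    calc 2 ≤ 2 * L := by
          have : 1 ≤ L := Nat.one_le_two_pow
          omega
      _ ≤ _ := Nat.le_self_pow (by norm_num) _
  set δ : ℝ := (1 / 32 : ℝ) ^ R with hδ
  have hlower : ∀ y, (c : ℝ) * δ * m ≤ 2 * B * ‖G y - G (xorv y ones)‖ := by
    intro y
    obtain ⟨W, hW1, hW2, hW⟩ := editDist_enc_ge (c := c) (by omega) E hE (Al : Set _)
      (fun a ha b hb => hap a (Finset.mem_coe.mp ha) b (Finset.mem_coe.mp hb))
      (word L cs R y) (word L cs R (xorv y ones)) (by rw [length_word, length_word])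
      (hmem y) (hmem _)
      ((isChain_word L cs (by norm_num) (by positivity) R _).imp fun a b h e => h (by rw [e])) P
    have h1 := word_lcs L 128 cs (by norm_num) (by norm_num) hfar hcopies R y W hW1 hW2
    rw [show ((128 : ℕ) : ℝ) / (2 * ((16 * 128 : ℕ) : ℝ)) = 1 / 32 by norm_num, ← hm, ← hδ] at h1
    rw [length_word, ← hm, ← hdist] at hW
    have h2 : (c : ℝ) * m ≤ c * W.length + 2 * (wordDist (padWord n (enc y))
        (padWord n (enc (xorv y ones))) : ℝ) := by exact_mod_cast hW
    have h3 := (hf (padWord n (enc y)) (padWord n (enc (xorv y ones)))).2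
    have hc0 : (0 : ℝ) ≤ c := Nat.cast_nonneg _
    have : (wordDist (padWord n (enc y)) (padWord n (enc (xorv y ones))) : ℝ)
        ≤ B * ‖G y - G (xorv y ones)‖ := h3
    nlinarith
  have hav : (c : ℝ) * δ * m ≤ 2 * B * nd G ones := by
    rw [nd, ← av_mul_left, ← av_const (ι := Fin R → Fin (16 * 128)) ((c : ℝ) * δ * m)]
    exact av_mono hlower
  have hall := hav.trans (mul_le_mul_of_nonneg_left hupper (by positivity))
  rw [Fintype.card_unit, ← hm, show ((128 : ℕ) : ℝ) / 2 = 64 by norm_num, ← mul_div_assoc,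
    le_div_iff₀ (by positivity)] at hall
  push_cast at hall
  have hpow : δ * (64 : ℝ) ^ R = 2 ^ R := by
    rw [hδ, ← mul_pow]; norm_num
  have hcm : (0 : ℝ) < c * m := mul_pos (by exact_mod_cast (by omega : 0 < c))
    (by exact_mod_cast hmpos)
  rw [div_le_iff₀ (by norm_num)]
  refine le_of_mul_le_mul_left ?_ hcm
  calc (c : ℝ) * m * 2 ^ R = c * δ * m * 64 ^ R := by rw [← hpow]; ring
    _ ≤ _ := hall
    _ = _ := by ring

theorem size_le (R : ℕ) (hR : 1 ≤ R) :
    128 * (11 * R + 11) * wlen 2048 (2 ^ (6 * R + 11)) 1024 R ≤ 2 ^ (20000 * R ^ 2) := by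
  have h1 : 128 * (11 * R + 11) ≤ 2 ^ (12 + R) := by
    rw [pow_add]
    have := (Nat.lt_two_pow_self (n := R)).le
    calc 128 * (11 * R + 11) ≤ 4096 * R := by omega
      _ ≤ _ := Nat.mul_le_mul (by norm_num) this
  have h2 : wlen 2048 (2 ^ (6 * R + 11)) 1024 R = 2 ^ ((11 + (6 * R + 12) * 1024) * R) := by
    rw [wlen, show (2 : ℕ) * 2 ^ (6 * R + 11) = 2 ^ (6 * R + 12) from (pow_succ' 2 (6 * R + 11)).symm]
    rw [← pow_mul, show (2048 : ℕ) = 2 ^ 11 by norm_num, ← pow_add, ← pow_mul]
  rw [h2]
  refine (Nat.mul_le_mul_right _ h1).trans ?_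
  rw [← pow_add]
  refine Nat.pow_le_pow_right (by norm_num) ?_
  nlinarith

/-- `c₁({0,1}^n, ED) ≥ exp (c √(log n))` for all large `n`. -/
theorem editDistortion_exp_lower :
    ∃ c : ℝ, 0 < c ∧ ∃ N : ℕ, ∀ n ≥ N,
      Real.exp (c * Real.sqrt (Real.log n)) ≤ editDistortion n := by
  suffices H : ∀ K : ℕ, 32 * 32 * 20000 ≤ K → ∀ n : ℕ, 2 ^ K ≤ n →
      Real.exp (1 / 2000 * Real.sqrt (Real.log n)) ≤ editDistortion n from
    ⟨1 / 2000, by norm_num, _, H (32 * 32 * 20000) le_rfl⟩
  intro K hK n hn
  set m := Nat.log 2 n with hm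
  have hn0 : n ≠ 0 := by
    have := Nat.two_pow_pos K
    omega
  have hmK : K ≤ m := Nat.le_log_of_pow_le (by norm_num) hn
  set R := Nat.sqrt (m / 20000) with hR
  have hR32 : 32 ≤ R := Nat.le_sqrt.mpr (by omega)
  have hRm : 20000 * R ^ 2 ≤ m := by
    have := Nat.sqrt_le (m / 20000)
    rw [← hR, ← pow_two] at this
    omega
  have hmR : m < 20000 * (R + 1) ^ 2 := by
    have := Nat.lt_succ_sqrt (m / 20000)
    rw [← hR, Nat.succ_eq_add_one, ← pow_two] at this
    omega
  have hsize : 128 * (11 * R + 11) * wlen 2048 (2 ^ (6 * R + 11)) 1024 R ≤ n :=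
    (size_le R (by omega)).trans
      ((Nat.pow_le_pow_right (by norm_num) hRm).trans (Nat.pow_log_le_self 2 hn0))
  refine le_csInf (distortion_set_nonempty (Nat.pos_of_ne_zero hn0)) ?_
  rintro t ⟨f, A, B, hA, hB, rfl, hf⟩
  refine le_trans ?_ (main_param R (by omega) n hsize f A B hA hB hf)
  have hnr : (0 : ℝ) < n := by exact_mod_cast Nat.pos_of_ne_zero hn0
  have hl2 : (0.693 : ℝ) < Real.log 2 := lt_trans (by norm_num) Real.log_two_gt_d9
  have hl2' : Real.log 2 < 0.694 := lt_trans Real.log_two_lt_d9 (by norm_num)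
  have hR' : (32 : ℝ) ≤ R := by exact_mod_cast hR32
  have hLog : Real.log n ≤ (200 * (R : ℝ)) ^ 2 := by
    have h1 : Real.log n ≤ ((m : ℝ) + 1) * Real.log 2 := by
      have h := Real.log_le_log hnr
        (show (n : ℝ) ≤ (2 : ℝ) ^ (m + 1) by
          exact_mod_cast (Nat.lt_pow_succ_log_self (by norm_num) n).le)
      rwa [Real.log_pow, Nat.cast_add, Nat.cast_one] at h
    have h2 : (m : ℝ) + 1 ≤ 20000 * ((R : ℝ) + 1) ^ 2 := by exact_mod_cast hmR
    nlinarith [mul_le_mul_of_nonneg_left hl2'.le (by positivity : (0 : ℝ) ≤ (m : ℝ) + 1)]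
  have hsq : Real.sqrt (Real.log n) ≤ 200 * R := Real.sqrt_le_iff.mpr ⟨by positivity, hLog⟩
  rw [← Real.le_log_iff_exp_le (by positivity), Real.log_div (by positivity) (by norm_num),
    Real.log_pow, show (512 : ℝ) = 2 ^ 9 by norm_num, Real.log_pow]
  push_cast
  nlinarith

end Vale.Agent.P238.Rec
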