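import Vale.Agent.P238.Rec.Words
import Vale.Agent.P238.Rec.Base

/-!
# Complementary points have close images on average

Translating by a generator is nearly a rotation of blocks, and translating one slice by the all-ones
vector is handled by the previous level; the inequality on the quotient of the cube combines them.
-/

namespace Vale.Agent.P238.Rec

open List Vale.Agent.P238

variable {d : ℕ}

theorem rep_rot {β : Type*} : ∀ (L : ℕ) (P Q : List β),
    P ++ rep L (Q ++ P) = rep L (P ++ Q) ++ P
  | 0, P, Q => by simp [rep_zero]
  | L + 1, P, Q => by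
    rw [rep_succ, rep_succ, List.append_assoc (P ++ Q) _ P, ← rep_rot L P Q]
    simp [List.append_assoc]

theorem editDist_rep_rot (L : ℕ) (P Q : List Bool) :
    editDist (rep L (P ++ Q)) (rep L (Q ++ P)) ≤ 2 * P.length := by
  cases L with
  | zero => simp [rep_zero, editDist_self]
  | succ L =>
    have e1 : rep (L + 1) (P ++ Q) = [] ++ P ++ (Q ++ rep L (P ++ Q)) ++ [] := by
      simp [rep_succ, List.append_assoc]
    have e2 : rep (L + 1) (Q ++ P) = [] ++ (Q ++ rep L (P ++ Q)) ++ P ++ [] := by
      simp [rep_succ, List.append_assoc, rep_rot L P Q]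
    rw [e1, e2]
    exact (editDist_block [] P (Q ++ rep L (P ++ Q)) []).1

theorem editDist_rep_le (X Y : List Bool) : ∀ L : ℕ,
    editDist (rep L X) (rep L Y) ≤ L * editDist X Y
  | 0 => by simp [rep_zero, editDist_self]
  | L + 1 => by
    rw [rep_succ, rep_succ, Nat.succ_mul, Nat.add_comm (L * _)]
    exact (editDist_append_le _ _ _ _).trans (Nat.add_le_add_left (editDist_rep_le X Y L) _)

theorem map_xorv_twice (l : List (Fin d → Bool)) (c : Fin d → Bool) :
    (l.map fun o => xorv o c).map (fun o => xorv o c) = l := by
  simp [List.map_map, Function.comp_def, xorv_xorv]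

theorem length_flatMap_const {β γ : Type*} (l : List β) (f : β → List γ) (b : ℕ)
    (hf : ∀ x, (f x).length = b) : (l.flatMap f).length = l.length * b := by
  simp [List.length_flatMap, hf]

/-- Translating the offsets by a generator costs at most a fraction `1 / L` of the length. -/
theorem cost_offs (L : ℕ) : ∀ (cs : List (Fin d → Bool)), ∀ c ∈ cs,
    ∀ (f : (Fin d → Bool) → List Bool) (b : ℕ), (∀ o, (f o).length = b) →
      L * editDist ((offs L cs).flatMap f) (((offs L cs).map fun o => xorv o c).flatMap f)
        ≤ (offs L cs).length * b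
  | [], c, hc, _, _, _ => absurd hc List.not_mem_nil
  | c0 :: cs, c, hc, f, b, hf => by
    set O := offs L cs with hO
    have hlen : (offs L (c0 :: cs)).length = 2 * L * O.length := by
      rw [offs, length_rep, List.length_append, List.length_map]; ring
    rw [offs, rep_map, List.map_append, rep_flatMap, rep_flatMap, List.flatMap_append,
      List.flatMap_append, ← offs] at *
    rcases List.mem_cons.mp hc with rfl | hc'
    · rw [map_xorv_twice, hlen]
      refine le_trans (Nat.mul_le_mul_left L (editDist_rep_rot L _ _)) (le_of_eq ?_)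
      rw [length_flatMap_const O f b hf]; ring
    · have h1 := cost_offs L cs c hc' f b hf
      have h2 := cost_offs L cs c hc' (fun o => f (xorv o c0)) b (fun o => hf _)
      have e : ((O.map fun o => xorv o c0).map fun o => xorv o c)
          = (O.map fun o => xorv o c).map fun o => xorv o c0 := by
        simp only [List.map_map, Function.comp_def]
        refine List.map_congr_left fun o _ => ?_
        funext i; simp [xorv, Bool.xor_assoc, Bool.xor_comm (c0 i)]
      rw [e, hlen, List.flatMap_map (fun o => xorv o c0) f O,
        List.flatMap_map (fun o => xorv o c0) f]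
      rw [← hO] at h1 h2
      refine le_trans (Nat.mul_le_mul_left L ((editDist_rep_le _ _ L).trans
        (Nat.mul_le_mul_left L (editDist_append_le _ _ _ _)))) ?_
      calc L * (L * (editDist (O.flatMap f) ((O.map fun o => xorv o c).flatMap f)
            + editDist (O.flatMap fun o => f (xorv o c0))
                ((O.map fun o => xorv o c).flatMap fun o => f (xorv o c0))))
          ≤ L * (O.length * b + O.length * b) := by
            refine Nat.mul_le_mul_left L ?_
            rw [Nat.mul_add]
            exact Nat.add_le_add h1 h2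
        _ = _ := by ring

/-- Lifting a vector of tags to the cube of paths. -/
def lift {r : ℕ} (g : Fin d → Bool) : Omega d (r + 1) := fun p => g (p 0)

/-- A point supported in one slice. -/
def single {r : ℕ} (i : Fin d) (z : Omega d r) : Omega d (r + 1) :=
  fun p => if p 0 = i then z (Fin.tail p) else false

theorem xorv_assoc {κ : Type*} (a b c : κ → Bool) : xorv (xorv a b) c = xorv a (xorv b c) := by
  funext i; simp [xorv]

theorem xorv_comm {κ : Type*} (a b : κ → Bool) : xorv a b = xorv b a := by
  funext i; simp [xorv, Bool.xor_comm]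

theorem xorv_right_comm {κ : Type*} (a b c : κ → Bool) :
    xorv (xorv a b) c = xorv (xorv a c) b := by
  rw [xorv_assoc, xorv_comm b c, ← xorv_assoc]

theorem xorv_lift {r : ℕ} (g h : Fin d → Bool) :
    (lift (xorv g h) : Omega d (r + 1)) = xorv (lift g) (lift h) := rfl

theorem single_xorv {r : ℕ} (i : Fin d) (z z' : Omega d r) :
    single i (xorv z z') = xorv (single i z) (single i z') := by
  funext p; by_cases h : p 0 = i <;> simp [single, xorv, h]

theorem single_ones {r : ℕ} (i : Fin d) :
    (single i ones : Omega d (r + 1)) = lift (unitv i) := by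
  funext p; by_cases h : p 0 = i <;> simp [single, lift, unitv, ones, h]

theorem slice_lift {r : ℕ} (x : Omega d (r + 1)) (c : Fin d → Bool) (i : Fin d) :
    slice (xorv x (lift c)) i = shift (slice x i) (c i) := by
  funext p; simp [slice, xorv, lift, shift]

theorem slice_single {r : ℕ} (x : Omega d (r + 1)) (z : Omega d r) (i i' : Fin d) :
    slice (xorv x (single i z)) i' = if i' = i then xorv z (slice x i) else slice x i' := by
  funext p
  by_cases h : i' = i
  · subst h; simp [slice, xorv, single, Bool.xor_comm]
  · simp [slice, xorv, single, h]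

theorem list_sum_fin {β : Type*} (l : List β) (f : β → ℕ) :
    (l.map f).sum = ∑ q : Fin l.length, f l[q.1] := by
  induction l with
  | nil => simp
  | cons a l ih =>
    rw [List.map_cons, List.sum_cons, ih]
    exact (Fin.sum_univ_succ (fun q : Fin (l.length + 1) => f (a :: l)[q.1])).symm

theorem list_map_sum_le {β : Type*} (l : List β) (f g : β → ℕ) (h : ∀ x ∈ l, f x ≤ g x) :
    (l.map f).sum ≤ (l.map g).sum :=
  List.sum_le_sum h

/-- The encoding of one slot of a word of level `r + 1`. -/
def slot (L : ℕ) (cs : List (Fin d → Bool)) (E : Sym d → List Bool) {r : ℕ} (x : Omega d (r + 1))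
    (o : Fin d → Bool) : List Bool :=
  (List.finRange d).flatMap fun i => (word L cs r (shift (slice x i) (o i))).flatMap (E ∘ tag i)

theorem enc_word (L : ℕ) (cs : List (Fin d → Bool)) (E : Sym d → List Bool) {r : ℕ}
    (x : Omega d (r + 1)) :
    (word L cs (r + 1) x).flatMap E = (offs L cs).flatMap (slot L cs E x) := by
  simp only [word, List.flatMap_assoc, List.flatMap_map]
  rfl

theorem length_slot (L : ℕ) (cs : List (Fin d → Bool)) (E : Sym d → List Bool) {ℓ : ℕ}
    (hE : ∀ s, (E s).length = ℓ) {r : ℕ} (x : Omega d (r + 1)) (o : Fin d → Bool) :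
    (slot L cs E x o).length = d * (wlen d L cs.length r * ℓ) := by
  rw [slot, length_flatMap_const _ _ (wlen d L cs.length r * ℓ), List.length_finRange]
  intro i
  rw [length_flatMap_const _ (E ∘ tag i) ℓ fun s => hE _, length_word]

/-- Translating by a generator is cheap. -/
theorem editDist_gen (L : ℕ) (cs : List (Fin d → Bool)) {c : Fin d → Bool} (hc : c ∈ cs)
    (E : Sym d → List Bool) {ℓ : ℕ} (hE : ∀ s, (E s).length = ℓ) {r : ℕ} (x : Omega d (r + 1)) :
    L * editDist ((word L cs (r + 1) x).flatMap E)
        ((word L cs (r + 1) (xorv x (lift c))).flatMap E)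
      ≤ wlen d L cs.length (r + 1) * ℓ := by
  have e : (word L cs (r + 1) (xorv x (lift c))).flatMap E
      = ((offs L cs).map fun o => xorv o c).flatMap (slot L cs E x) := by
    rw [enc_word, List.flatMap_map]
    refine List.flatMap_congr fun o _ => ?_
    simp only [slot, slice_lift]
    refine List.flatMap_congr fun i _ => ?_
    congr 2
    funext p; simp [shift, xorv, Bool.xor_comm (c i)]
  rw [e, enc_word]
  refine (cost_offs L cs c hc _ _ (length_slot L cs E hE x)).trans (le_of_eq ?_)
  rw [length_offs, wlen, wlen, pow_succ]; ring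

/-- Changing one slice costs at most the total cost of its copies. -/
theorem editDist_single (L : ℕ) (cs : List (Fin d → Bool)) (E : Sym d → List Bool) {r : ℕ}
    (x : Omega d (r + 1)) (i : Fin d) (z z' : Omega d r) :
    editDist ((word L cs (r + 1) (xorv x (single i z))).flatMap E)
        ((word L cs (r + 1) (xorv x (single i z'))).flatMap E)
      ≤ ∑ q : Fin (offs L cs).length, editDist
          ((word L cs r (xorv z (shift (slice x i) ((offs L cs)[q.1] i)))).flatMap (E ∘ tag i))
          ((word L cs r (xorv z' (shift (slice x i) ((offs L cs)[q.1] i)))).flatMap (E ∘ tag i)) := by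
  rw [enc_word, enc_word]
  refine (editDist_flatMap_le _ _ _).trans ?_
  rw [← list_sum_fin (offs L cs) (fun o => editDist
    ((word L cs r (xorv z (shift (slice x i) (o i)))).flatMap (E ∘ tag i))
    ((word L cs r (xorv z' (shift (slice x i) (o i)))).flatMap (E ∘ tag i)))]
  refine list_map_sum_le _ _ _ fun o _ => ?_
  unfold slot
  refine (editDist_flatMap_le _ _ _).trans ?_
  rw [← Fin.sum_univ_def, Finset.sum_eq_single i (fun i' _ hi' => ?_) (by simp)]
  · have e : ∀ w : Omega d r, shift (slice (xorv x (single i w)) i) (o i)
        = xorv w (shift (slice x i) (o i)) := fun w => by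
      rw [slice_single, if_pos rfl]; funext p; simp [shift, xorv, Bool.xor_assoc]
    rw [e, e]
  · simp [slice_single, hi', editDist_self]

theorem av_av_swap {α β : Type*} [Fintype α] [DecidableEq α] [Fintype β] [DecidableEq β]
    (φ : (α → Bool) → (β → Bool) → ℝ) :
    av (fun a => av fun b => φ a b) = av (fun b => av fun a => φ a b) := by
  simp only [av, ← Finset.sum_div]
  rw [Finset.sum_comm, div_right_comm]

/-- An average over translated copies is the average. -/
theorem av_smear {α β : Type*} [Fintype α] [DecidableEq α] [Fintype β] [DecidableEq β]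
    (τ : (β → Bool) → α → Bool) (φ : (α → Bool) → ℝ) :
    av (fun y => av fun g => φ (xorv y (τ g))) = av φ := by
  rw [av_av_swap (fun y g => φ (xorv y (τ g))), av_congr fun g => av_xorv (τ g) φ, av_const]

theorem nd_lift {r : ℕ} (F : Omega d (r + 1) → EllOne) (h : Fin d → Bool) :
    av (fun y => nd (fun g => F (xorv y (lift g))) h) = nd F (lift h) := by
  unfold nd
  rw [← av_smear lift (fun y => ‖F y - F (xorv y (lift h))‖)]
  refine av_congr fun y => av_congr fun g => ?_
  simp only [xorv_lift, ← xorv_assoc]

theorem nd_single {r : ℕ} (F : Omega d (r + 1) → EllOne) (i : Fin d) :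
    av (fun y => nd (fun z => F (xorv y (single i z))) ones) = nd F (lift (unitv i)) := by
  unfold nd
  rw [← av_smear (single i) (fun y => ‖F y - F (xorv y (lift (unitv i)))‖)]
  refine av_congr fun y => av_congr fun z => ?_
  simp only [single_xorv, ← xorv_assoc, single_ones]

theorem lift_ones {r : ℕ} : (lift ones : Omega d (r + 1)) = ones := rfl

theorem av_list_sum {α β : Type*} [Fintype α] [DecidableEq α] (l : List β)
    (f : β → (α → Bool) → ℝ) :
    av (fun x => (l.map fun c => f c x).sum) = (l.map fun c => av (f c)).sum := by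
  induction l with
  | nil => simp [av_const]
  | cons a l ih => simp only [List.map_cons, List.sum_cons, av_add, ih]

/-- A map controlled by the edit distances of encoded words identifies complements on average. -/
theorem nd_ones_le (L τ : ℕ) (cs : List (Fin d → Bool)) (hτ : 0 < τ) (hdet : Detects τ cs) :
    ∀ r, (∀ s < r, (cs.length : ℝ) * τ * ((τ : ℝ) / 2) ^ s ≤ L) →
    ∀ (ℓ : ℕ) (E : Sym d → List Bool), (∀ s, (E s).length = ℓ) →
    ∀ (F : Omega d r → EllOne) (A : ℝ), 0 ≤ A →
    ∀ (κ : Type) [Fintype κ] (a : κ → Omega d r),
      (∀ y y', ‖F y - F y'‖ ≤ A * ∑ j, (editDist ((word L cs r (xorv y (a j))).flatMap E)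
        ((word L cs r (xorv y' (a j))).flatMap E) : ℝ)) →
      nd F ones ≤ 2 * A * Fintype.card κ * ℓ * wlen d L cs.length r / ((τ : ℝ) / 2) ^ r
  | 0, _, ℓ, E, hE, F, A, hA, κ, _, a, hF => by
    refine (av_mono fun y => ?_).trans (le_of_eq (av_const _))
    refine (hF _ _).trans ?_
    have : ∀ j, (editDist ((word L cs 0 (xorv y (a j))).flatMap E)
        ((word L cs 0 (xorv (xorv y ones) (a j))).flatMap E) : ℝ) ≤ 2 * ℓ := by
      intro j
      have h := editDist_le_max ((word L cs 0 (xorv y (a j))).flatMap E)
        ((word L cs 0 (xorv (xorv y ones) (a j))).flatMap E)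
      rw [length_flatMap_const _ _ ℓ hE, length_flatMap_const _ _ ℓ hE, length_word, length_word,
        wlen, pow_zero, one_mul] at h
      exact_mod_cast (by omega : _ ≤ 2 * ℓ)
    refine (mul_le_mul_of_nonneg_left (Finset.sum_le_sum fun j _ => this j) hA).trans (le_of_eq ?_)
    simp [wlen]; ring
  | r + 1, hL, ℓ, E, hE, F, A, hA, κ, _, a, hF => by
    classical
    set W : ℝ := A * Fintype.card κ * ℓ * wlen d L cs.length (r + 1) with hW
    have hW0 : 0 ≤ W := by positivity
    have hτ' : (0 : ℝ) < τ := by exact_mod_cast hτ
    have hDr : (0 : ℝ) < ((τ : ℝ) / 2) ^ r := by positivity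
    have hgen : ∀ c ∈ cs, (L : ℝ) * nd F (lift c) ≤ W := by
      intro c hc
      rw [nd, ← av_mul_left]
      refine (av_mono fun y => ?_).trans (le_of_eq (av_const _))
      refine (mul_le_mul_of_nonneg_left (hF _ _) (Nat.cast_nonneg _)).trans ?_
      rw [mul_left_comm, Finset.mul_sum]
      refine (mul_le_mul_of_nonneg_left (Finset.sum_le_sum (g := fun _ =>
        ((wlen d L cs.length (r + 1) * ℓ : ℕ) : ℝ)) fun j _ => ?_) hA).trans (le_of_eq ?_)
      · rw [xorv_right_comm]
        exact_mod_cast editDist_gen L cs hc E hE (xorv y (a j))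
      · simp [hW]; ring
    have hinner : ∀ i, nd F (lift (unitv i)) ≤
        2 * A * (Fintype.card κ * (2 * L) ^ cs.length : ℕ) * ℓ * wlen d L cs.length r
          / ((τ : ℝ) / 2) ^ r := by
      intro i
      rw [← nd_single]
      refine (av_mono fun y => ?_).trans (le_of_eq (av_const _))
      have H := nd_ones_le L τ cs hτ hdet r (fun s hs => hL s (by omega)) ℓ (E ∘ tag i)
        (fun s => hE _) (fun z => F (xorv y (single i z))) A hA (κ × Fin (offs L cs).length)
        (fun jq => shift (slice (xorv y (a jq.1)) i) ((offs L cs)[jq.2.1] i)) ?_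
      · simpa [length_offs] using H
      · intro z z'
        refine (hF _ _).trans (mul_le_mul_of_nonneg_left ?_ hA)
        rw [Fintype.sum_prod_type]
        refine Finset.sum_le_sum fun j _ => ?_
        rw [xorv_right_comm y (single i z), xorv_right_comm y (single i z')]
        exact_mod_cast editDist_single L cs E (xorv y (a j)) i z z'
    have hcoset : nd F ones ≤ (∑ i, nd F (lift (unitv i))) / τ
        + (cs.map fun c => nd F (lift c)).sum := by
      have h : av (fun y => nd (fun g => F (xorv y (lift g))) ones)
          ≤ av fun y => rhs τ cs (nd fun g => F (xorv y (lift g))) :=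
        av_mono fun y => norm_le hτ hdet _
      rw [nd_lift, lift_ones] at h
      refine h.trans (le_of_eq ?_)
      simp only [rhs, av_add, av_list_sum, nd_lift]
      congr 1
      rw [show (fun y : Omega d (r + 1) => (∑ a, nd (fun g => F (xorv y (lift g))) (unitv a)) / (τ : ℝ))
        = fun y => (τ : ℝ)⁻¹ * ∑ a, nd (fun g => F (xorv y (lift g))) (unitv a) from
          funext fun y => div_eq_inv_mul _ _, av_mul_left, av_sum, div_eq_inv_mul]
      simp only [nd_lift]
    have hsum1 : (∑ i, nd F (lift (unitv i))) / τ ≤ 2 * W / ((τ : ℝ) * ((τ : ℝ) / 2) ^ r) := by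
      refine (div_le_div_of_nonneg_right (Finset.sum_le_sum fun i _ => hinner i) hτ'.le).trans
        (le_of_eq ?_)
      simp only [Finset.sum_const, Finset.card_univ, Fintype.card_fin, nsmul_eq_mul, hW, wlen,
        pow_succ]
      push_cast
      field_simp
    have hsum2 : (cs.map fun c => nd F (lift c)).sum ≤ W / ((τ : ℝ) * ((τ : ℝ) / 2) ^ r) := by
      have h1 : (L : ℝ) * (cs.map fun c => nd F (lift c)).sum ≤ cs.length * W := by
        rw [← List.sum_map_mul_left]
        refine (List.sum_le_card_nsmul _ W ?_).trans (le_of_eq ?_)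
        · intro x hx
          obtain ⟨c, hc, rfl⟩ := List.mem_map.mp hx
          exact hgen c hc
        · simp
      have h2 := hL r (by omega)
      have h0 : 0 ≤ (cs.map fun c => nd F (lift c)).sum := by
        refine List.sum_nonneg fun x hx => ?_
        obtain ⟨c, _, rfl⟩ := List.mem_map.mp hx
        exact av_nonneg fun _ => norm_nonneg _
      rw [le_div_iff₀ (by positivity)]
      rcases Nat.eq_zero_or_pos cs.length with hk | hk
      · rw [List.length_eq_zero_iff.mp hk]; simpa using hW0
      have hk' : (0 : ℝ) < cs.length := by exact_mod_cast hk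
      nlinarith [mul_le_mul_of_nonneg_right h2 h0]
    refine (hcoset.trans (add_le_add hsum1 hsum2)).trans ?_
    rw [show 2 * A * Fintype.card κ * ℓ * wlen d L cs.length (r + 1) = 2 * W by rw [hW]; ring,
      pow_succ, ← add_div, div_le_div_iff₀ (by positivity) (by positivity)]
    nlinarith [mul_nonneg hW0 (mul_nonneg hτ'.le hDr.le)]

end Vale.Agent.P238.Rec
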