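import Vale.Agent.P238.Rec.Fourier
import Vale.Agent.P238.Rec.Align

/-!
# The recursive words and their lack of common subsequences

`word L cs r y` is a word over the symbols (path, bit), built from a point `y` of the cube on `d ^ r`
coordinates. A block of level `r + 1` runs over the list of offsets, a list in which translating by a
generator is nearly a rotation; under the tag `i` it carries the level `r` word of the `i`-th slice
of `y`, translated by the `i`-th entry of the offset.
-/

namespace Vale.Agent.P238.Rec

open List

variable {d : ℕ}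

/-- A symbol: a path in the tree of tags, and a bit. -/
abbrev Sym (d : ℕ) : Type := List (Fin d) × Bool

/-- The cube with one coordinate for each path of length `r`. -/
abbrev Omega (d r : ℕ) : Type := (Fin r → Fin d) → Bool

/-- `L` copies of a list. -/
def rep {β : Type*} (L : ℕ) (X : List β) : List β := (List.replicate L X).flatten

theorem rep_zero {β : Type*} (X : List β) : rep 0 X = [] := rfl

theorem rep_succ {β : Type*} (L : ℕ) (X : List β) : rep (L + 1) X = X ++ rep L X := by
  simp [rep, List.replicate_succ]

theorem length_rep {β : Type*} (L : ℕ) (X : List β) : (rep L X).length = L * X.length := by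
  induction L with
  | zero => simp [rep_zero]
  | succ L ih => rw [rep_succ, List.length_append, ih, Nat.succ_mul, Nat.add_comm]

theorem mem_rep {β : Type*} {L : ℕ} {X : List β} {x : β} (h : x ∈ rep L X) : x ∈ X := by
  simp only [rep, List.mem_flatten] at h
  obtain ⟨l, hl, hx⟩ := h
  exact (List.eq_of_mem_replicate hl) ▸ hx

theorem rep_flatMap {β γ : Type*} (L : ℕ) (X : List β) (f : β → List γ) :
    (rep L X).flatMap f = rep L (X.flatMap f) := by
  induction L with
  | zero => simp [rep_zero]
  | succ L ih => rw [rep_succ, rep_succ, List.flatMap_append, ih]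

theorem rep_map {β γ : Type*} (L : ℕ) (X : List β) (f : β → γ) :
    (rep L X).map f = rep L (X.map f) := by
  induction L with
  | zero => simp [rep_zero]
  | succ L ih => rw [rep_succ, rep_succ, List.map_append, ih]

/-- All sums of subfamilies of the generators. -/
def span : List (Fin d → Bool) → List (Fin d → Bool)
  | [] => [fun _ => false]
  | c :: cs => span cs ++ (span cs).map fun o => xorv o c

/-- The list of offsets: translating it by a generator is nearly a rotation. -/
def offs (L : ℕ) : List (Fin d → Bool) → List (Fin d → Bool)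
  | [] => [fun _ => false]
  | c :: cs => rep L (offs L cs ++ (offs L cs).map fun o => xorv o c)

theorem length_offs (L : ℕ) : ∀ cs : List (Fin d → Bool),
    (offs L cs).length = (2 * L) ^ cs.length
  | [] => rfl
  | c :: cs => by
    rw [offs, length_rep, List.length_append, List.length_map, length_offs L cs, List.length_cons,
      pow_succ]
    ring

theorem zero_mem_span : ∀ cs : List (Fin d → Bool), (fun _ => false) ∈ span cs
  | [] => List.mem_singleton.mpr rfl
  | _ :: cs => List.mem_append_left _ (zero_mem_span cs)

theorem offs_subset_span (L : ℕ) : ∀ cs : List (Fin d → Bool), ∀ o ∈ offs L cs, o ∈ span cs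
  | [], o, h => h
  | c :: cs, o, h => by
    rcases List.mem_append.mp (mem_rep h) with h' | h'
    · exact List.mem_append_left _ (offs_subset_span L cs o h')
    · obtain ⟨p, hp, rfl⟩ := List.mem_map.mp h'
      exact List.mem_append_right _ (List.mem_map.mpr ⟨p, offs_subset_span L cs p hp, rfl⟩)

theorem getD_mem_span (L : ℕ) (cs : List (Fin d → Bool)) (q : ℕ) :
    (offs L cs).getD q (fun _ => false) ∈ span cs := by
  rw [List.getD_eq_getElem?_getD]
  rcases h : (offs L cs)[q]? with _ | o
  · exact zero_mem_span cs
  · exact offs_subset_span L cs o (List.mem_of_getElem? h)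

/-- The slice of a point at a first tag. -/
def slice {r : ℕ} (y : Omega d (r + 1)) (i : Fin d) : Omega d r := fun p => y (Fin.cons i p)

/-- Translation by a multiple of the all-ones vector. -/
def shift {r : ℕ} (z : Omega d r) (b : Bool) : Omega d r := fun p => xor (z p) b

/-- Prefix a tag. -/
def tag (i : Fin d) (s : Sym d) : Sym d := (i :: s.1, s.2)

/-- The words. -/
def word (L : ℕ) (cs : List (Fin d → Bool)) : (r : ℕ) → Omega d r → List (Sym d)
  | 0, y => [([], y Fin.elim0)]
  | r + 1, y => (offs L cs).flatMap fun o => (List.finRange d).flatMap fun i =>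
      (word L cs r (shift (slice y i) (o i))).map (tag i)

/-- The length of the words. -/
def wlen (d L k r : ℕ) : ℕ := (d * (2 * L) ^ k) ^ r

theorem sum_map_const {β : Type*} (l : List β) (c : ℕ) :
    (l.map fun _ => c).sum = l.length * c := by
  simp

theorem length_word (L : ℕ) (cs : List (Fin d → Bool)) : ∀ r (y : Omega d r),
    (word L cs r y).length = wlen d L cs.length r
  | 0, _ => by simp [word, wlen]
  | r + 1, y => by
    simp only [word, List.length_flatMap, List.length_map, length_word L cs r, sum_map_const,
      List.length_finRange, length_offs]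
    rw [wlen, wlen, pow_succ]
    ring

/-- The paths of a word all have length `r`. -/
theorem path_length (L : ℕ) (cs : List (Fin d → Bool)) : ∀ r (y : Omega d r),
    ∀ s ∈ word L cs r y, s.1.length = r
  | 0, _, s, h => by simp [word] at h; simp [h]
  | r + 1, y, s, h => by
    simp only [word, List.mem_flatMap, List.mem_map] at h
    obtain ⟨o, _, i, _, s', hs', rfl⟩ := h
    simp [tag, path_length L cs r _ s' hs']

theorem flatMap_units {β γ : Type*} (hd : 0 < d) (F : β → Fin d → List γ) (dflt : β) :
    ∀ O : List β, (O.flatMap fun o => (List.finRange d).flatMap (F o)) =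
      (List.range (O.length * d)).flatMap fun A =>
        F (O.getD (A / d) dflt) ⟨A % d, Nat.mod_lt _ hd⟩
  | [] => by simp
  | o :: O => by
    rw [List.flatMap_cons, flatMap_units hd F dflt O, List.length_cons, Nat.succ_mul, Nat.add_comm,
      List.range_add, List.flatMap_append, List.flatMap_map]
    congr 1
    · rw [← List.map_coe_finRange_eq_range, List.flatMap_map]
      refine List.flatMap_congr fun i _ => ?_
      simp [Nat.div_eq_of_lt i.isLt, Nat.mod_eq_of_lt i.isLt]
    · refine List.flatMap_congr fun A _ => ?_
      simp [Nat.add_div_left A hd]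

/-- The top tag of a symbol. -/
def topTag : Sym d → ℕ
  | ([], _) => 0
  | (i :: _, _) => i

/-- Unit `A` of a word of level `r + 1`. -/
def unitOf (L : ℕ) (cs : List (Fin d → Bool)) (hd : 0 < d) {r : ℕ} (y : Omega d (r + 1)) (A : ℕ) :
    List (Sym d) :=
  (word L cs r (shift (slice y ⟨A % d, Nat.mod_lt _ hd⟩)
    ((offs L cs).getD (A / d) (fun _ => false) ⟨A % d, Nat.mod_lt _ hd⟩))).map
    (tag ⟨A % d, Nat.mod_lt _ hd⟩)

theorem word_units (L : ℕ) (cs : List (Fin d → Bool)) (hd : 0 < d) {r : ℕ} (y : Omega d (r + 1)) :
    word L cs (r + 1) y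
      = (List.range ((2 * L) ^ cs.length * d)).flatMap (unitOf L cs hd y) := by
  rw [word, flatMap_units hd _ (fun _ => false), length_offs]
  rfl

theorem unitOf_topTag (L : ℕ) (cs : List (Fin d → Bool)) (hd : 0 < d) {r : ℕ}
    (y : Omega d (r + 1)) (A : ℕ) : ∀ s ∈ unitOf L cs hd y A, topTag s = A % d := by
  intro s hs
  obtain ⟨s', _, rfl⟩ := List.mem_map.mp hs
  rfl

/-- Adjacent symbols of a word have different paths. -/
theorem isChain_word (L : ℕ) (cs : List (Fin d → Bool)) (hd : 2 ≤ d) (hL : 0 < L) : ∀ r (y : Omega d r),
    (word L cs r y).IsChain (fun a b => a.1 ≠ b.1)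
  | 0, _ => List.isChain_singleton _
  | r + 1, y => by
    rw [word_units L cs (by omega) y]
    generalize (2 * L) ^ cs.length * d = N
    have key : ∀ N, ((List.range N).flatMap (unitOf L cs (by omega) y)).IsChain
        (fun a b => a.1 ≠ b.1) ∧ ∀ s ∈ ((List.range N).flatMap (unitOf L cs (by omega) y)).getLast?,
          0 < N ∧ topTag s = (N - 1) % d ∧ s.1 ≠ [] := by
      intro N
      induction N with
      | zero => simp
      | succ N ih =>
        rw [List.range_succ, List.flatMap_append, List.flatMap_singleton]
        constructor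
        · refine ih.1.append ?_ ?_
          · exact List.isChain_map_of_isChain (tag _) (fun a b h e => h (List.cons.inj e).2)
              (isChain_word L cs hd hL r _)
          · intro a ha b hb e
            obtain ⟨hN, ha', hne⟩ := ih.2 a ha
            have hb' := unitOf_topTag L cs (by omega) y N b (List.mem_of_head? hb)
            have : topTag a = topTag b := by
              obtain ⟨pa, ba⟩ := a
              obtain ⟨pb, bb⟩ := b
              simp only at e hne
              subst e
              cases pa with
              | nil => exact absurd rfl hne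
              | cons i p => rfl
            rw [ha', hb'] at this
            have h2 : (N - 1 + 1) % d = N % d := by rw [Nat.sub_add_cancel hN]
            rw [Nat.add_mod, this] at h2
            have h3 : N % d < d := Nat.mod_lt _ (by omega)
            rw [Nat.mod_eq_of_lt (by omega : 1 < d)] at h2
            rcases lt_or_ge (N % d + 1) d with hl | hl
            · rw [Nat.mod_eq_of_lt hl] at h2; omega
            · rw [Nat.mod_eq_sub_mod hl, Nat.mod_eq_of_lt (by omega)] at h2; omega
        · intro s hs
          have hlen : unitOf L cs (by omega) y N ≠ [] := by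
            intro h0
            have h1 := congrArg List.length h0
            rw [unitOf, List.length_map, length_word, List.length_nil, wlen] at h1
            have : 0 < (d * (2 * L) ^ cs.length) ^ r :=
              pow_pos (Nat.mul_pos (by omega) (pow_pos (by omega) _)) _
            omega
          rw [List.getLast?_append_of_ne_nil _ hlen] at hs
          have hm := List.mem_of_getLast? hs
          refine ⟨N.succ_pos, by simpa using unitOf_topTag L cs (by omega) y N s hm, ?_⟩
          obtain ⟨s', _, rfl⟩ := List.mem_map.mp hm
          simp [tag]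
    exact (key N).1

theorem slice_xorv_ones {r : ℕ} (y : Omega d (r + 1)) (i : Fin d) :
    slice (xorv y ones) i = shift (slice y i) true := rfl

/-- No two sums of generators differ in more than all but `τ` coordinates. -/
def Far (τ : ℕ) (cs : List (Fin d → Bool)) : Prop :=
  ∀ v ∈ span cs, ∀ w ∈ span cs, τ ≤ (Finset.univ.filter fun i => v i = w i).card

/-- A point and its complement give words without long common subsequences. -/
theorem word_lcs (L τ : ℕ) (cs : List (Fin d → Bool)) (hd : 4 ≤ d) (hτd : 16 * τ ≤ d)
    (hfar : Far τ cs) (hcopies : 2 ≤ (2 * L) ^ cs.length) :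
    ∀ r (y : Omega d r) (Z : List (Sym d)), Z <+ word L cs r y → Z <+ word L cs r (xorv y ones) →
      (Z.length : ℝ) ≤ (1 - ((τ : ℝ) / (2 * d)) ^ r) * wlen d L cs.length r
  | 0, y, Z, h1, h2 => by
    simp only [word] at h1 h2
    match Z, h1, h2 with
    | [], _, _ => simp
    | a :: z, h1, h2 =>
      have e1 := List.mem_singleton.mp (h1.subset List.mem_cons_self)
      have e2 := List.mem_singleton.mp (h2.subset List.mem_cons_self)
      rw [e1] at e2
      simp [xorv, ones] at e2
  | r + 1, y, Z, h1, h2 => by
    have hdpos : 0 < d := by omega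
    have hd' : (4 : ℝ) ≤ d := by exact_mod_cast hd
    have hτd' : (τ : ℝ) / d ≤ 1 / 16 := by
      rw [div_le_div_iff₀ (by linarith) (by norm_num)]
      have : (16 : ℝ) * τ ≤ d := by exact_mod_cast hτd
      linarith
    set δ : ℝ := ((τ : ℝ) / (2 * d)) ^ r with hδ
    have hρ1 : (τ : ℝ) / (2 * d) ≤ 1 := by
      rw [mul_comm (2 : ℝ), ← div_div]; linarith [show (0:ℝ) ≤ (τ : ℝ) / d by positivity]
    have hδ1 : δ ≤ 1 := pow_le_one₀ (by positivity) hρ1
    have hδ0 : 0 ≤ δ := by positivity
    set δ' : ℝ := δ * ((τ : ℝ) / d) with hδ'
    have hδ'0 : 0 ≤ δ' := by positivity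
    have hδ'16 : δ' ≤ 1 / 16 :=
      le_trans (mul_le_of_le_one_left (by positivity) hδ1) hτd'
    set o : ℕ → Fin d → Bool := fun q => (offs L cs).getD q (fun _ => false) with ho
    set idx : ℕ → Fin d := fun A => ⟨A % d, Nat.mod_lt _ hdpos⟩ with hidx
    set w : ℕ → ℕ → ℝ := fun A B =>
      δ' - (if o (A / d) (idx A) = o (B / d) (idx A) then δ else 0) with hw
    set N := (2 * L) ^ cs.length * d with hN
    set m := wlen d L cs.length r with hm
    rw [word_units L cs hdpos] at h1 h2
    have main := align_periodic d N hd topTag (unitOf L cs hdpos y)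
      (unitOf L cs hdpos (xorv y ones)) (fun A _ => unitOf_topTag L cs hdpos y A)
      (fun A _ => unitOf_topTag L cs hdpos _ A) m δ' (Nat.cast_nonneg _) hδ'0 hδ'16 w
      (fun A B => by simp only [hw]; split_ifs <;> linarith)
      (fun A B => by simp only [hw]; split_ifs <;> linarith) ?_ ?_ Z h1 h2
    · refine main.trans ?_
      have hwl : (wlen d L cs.length (r + 1) : ℝ) = m * N := by
        rw [hm, hN, wlen, wlen, pow_succ]; push_cast; ring
      have hcop : (2 : ℝ) ≤ ((2 * L) ^ cs.length : ℕ) := by exact_mod_cast hcopies
      have hNd : 2 * (d : ℝ) ≤ N := by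
        rw [hN, Nat.cast_mul]
        exact mul_le_mul_of_nonneg_right hcop (by linarith)
      have hpow : ((τ : ℝ) / (2 * d)) ^ (r + 1) = δ' / 2 := by
        rw [hδ', hδ, pow_succ]; field_simp
      rw [hwl, hpow]
      have : (1 - δ') * N + d * δ' ≤ (1 - δ' / 2) * N := by nlinarith
      calc (m : ℝ) * ((1 - δ') * N + d * δ') ≤ m * ((1 - δ' / 2) * N) :=
            mul_le_mul_of_nonneg_left this (Nat.cast_nonneg _)
        _ = _ := by ring
    · intro A _ B _ hAB Z hZ1 hZ2
      have hiAB : idx B = idx A := Fin.ext hAB.symm
      simp only [unitOf] at hZ1 hZ2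
      rw [show (⟨B % d, Nat.mod_lt _ hdpos⟩ : Fin d) = idx A from hiAB, slice_xorv_ones] at hZ2
      obtain ⟨Z1, hZ1', rfl⟩ := List.sublist_map_iff.mp hZ1
      obtain ⟨Z2, hZ2', he⟩ := List.sublist_map_iff.mp hZ2
      have hinj : Function.Injective (tag (idx A)) := fun a b h => by
        simp only [tag, Prod.mk.injEq, List.cons.injEq, true_and] at h
        exact Prod.ext h.1 h.2
      obtain rfl : Z1 = Z2 := List.map_injective_iff.mpr hinj he
      rw [List.length_map]
      by_cases hb : o (A / d) (idx A) = o (B / d) (idx A)
      · have e : shift (shift (slice y (idx A)) true) (o (B / d) (idx A))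
            = xorv (shift (slice y (idx A)) (o (A / d) (idx A))) ones := by
          rw [hb]; funext p; simp [shift, xorv, ones]
        have := word_lcs L τ cs hd hτd hfar hcopies r _ Z1 hZ1' (e ▸ hZ2')
        simp only [hw, if_pos hb]
        linarith
      · have hl := hZ1'.length_le
        rw [length_word, ← hm] at hl
        have : (Z1.length : ℝ) ≤ m := by exact_mod_cast hl
        simp only [hw, if_neg hb]
        linarith
    · intro q q'
      have hsum : ∑ i ∈ Finset.range d, w (d * q + i) (d * q' + i)
          = ∑ i : Fin d, (δ' - if o q i = o q' i then δ else 0) := by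
        rw [← Fin.sum_univ_eq_sum_range (fun i => w (d * q + i) (d * q' + i))]
        refine Finset.sum_congr rfl fun i _ => ?_
        have e1 : idx (d * q + i) = i := Fin.ext (by simp [hidx, Nat.mod_eq_of_lt i.isLt])
        simp only [hw, e1, Nat.mul_add_div hdpos, Nat.div_eq_of_lt i.isLt, Nat.add_zero]
      rw [hsum, Finset.sum_sub_distrib, ← Finset.sum_filter]
      simp only [Finset.sum_const, Finset.card_univ, Fintype.card_fin, nsmul_eq_mul]
      have hc : (τ : ℝ) ≤ ((Finset.univ.filter fun i => o q i = o q' i).card : ℝ) := by
        exact_mod_cast hfar _ (getD_mem_span L cs q) _ (getD_mem_span L cs q')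
      have : (d : ℝ) * δ' = τ * δ := by rw [hδ']; field_simp
      nlinarith

end Vale.Agent.P238.Rec
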